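import Vale.Agent.P284.H15.G.Lin
import Vale.Agent.P284.H478.G.S
import Vale.Agent.P284.H213.Grp.Basic

/-!
# P284 (helper15), target G, G1: a unitary representation of `K` whose character is invariant under `Γ`
has finite image
-/

open scoped Topology InnerProductSpace ComplexConjugate
open Filter Set Metric Module

noncomputable section

namespace Vale.Agent.P284.H15.G

open Vale.Agent.P284.H894.V Vale.Agent.P284.H478.G

variable {Γ : Type} [Group Γ] {K : Subgroup Γ}

/-- unbundled version of `FinRepIn`: linear maps `T g` of a real vector space, which preserve a finite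
dimensional subspace `V`; a subgroup of finite index of `K` acts trivially on `V` -/
theorem exists_trivial_onG (hfr : FinRepIn Γ K) {W : Type*}
    [AddCommGroup W] [Module ℝ W] (T : Γ → W → W) (V : Submodule ℝ W) (hV : FiniteDimensional ℝ V)
    (hmap : ∀ k, ∀ v ∈ V, T k v ∈ V) (hadd : ∀ k, ∀ v ∈ V, ∀ v' ∈ V, T k (v + v') = T k v + T k v')
    (hsmul : ∀ k, ∀ (c : ℝ), ∀ v ∈ V, T k (c • v) = c • T k v) (hone : ∀ v ∈ V, T 1 v = v)
    (hmul : ∀ k k', ∀ v ∈ V, T (k * k') v = T k (T k' v)) :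
    ∃ L : Subgroup K, L.FiniteIndex ∧ ∀ k ∈ L, ∀ v ∈ V, T k v = v := by
  classical
  let d := Module.finrank ℝ V
  let b : V ≃ₗ[ℝ] (Fin d → ℝ) := (Module.finBasis ℝ V).equivFun
  let τ : Γ → (V →ₗ[ℝ] V) := fun k =>
    { toFun := fun v => ⟨T k v, hmap k v v.2⟩
      map_add' := fun v v' => Subtype.ext (hadd k v v.2 v' v'.2)
      map_smul' := fun c v => Subtype.ext (hsmul k c v v.2) }
  let ρ : Γ →* ((Fin d → ℝ) →ₗ[ℝ] (Fin d → ℝ)) :=
    { toFun := fun k => b.toLinearMap ∘ₗ τ k ∘ₗ b.symm.toLinearMap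
      map_one' := by
        refine LinearMap.ext fun x => ?_
        show b (τ 1 (b.symm x)) = x
        have h1 : τ 1 (b.symm x) = b.symm x := Subtype.ext (hone _ (b.symm x).2)
        rw [h1, LinearEquiv.apply_symm_apply]
      map_mul' := fun k k' => by
        refine LinearMap.ext fun x => ?_
        show b (τ (k * k') (b.symm x)) = b (τ k (b.symm (b (τ k' (b.symm x)))))
        rw [LinearEquiv.symm_apply_apply]
        congr 1
        exact Subtype.ext (hmul k k' _ (b.symm x).2) }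
  set σ : K →* ((Fin d → ℝ) →ₗ[ℝ] (Fin d → ℝ)) := ρ.comp K.subtype with hσ
  have hfin : Finite (Set.range σ) := by
    refine Set.Finite.to_subtype ((hfr (Fin d → ℝ) ρ).subset ?_)
    rintro _ ⟨k, rfl⟩
    exact ⟨k, k.2, rfl⟩
  refine ⟨σ.ker, ?_, fun k hk v hv => ?_⟩
  · have : Finite (K ⧸ σ.ker) := by
      refine Finite.of_injective (β := Set.range σ)
        (fun x => Quotient.liftOn' x (fun k => (⟨σ k, k, rfl⟩ : Set.range σ)) ?_) ?_
      · intro a b hab
        have h1 : a⁻¹ * b ∈ σ.ker := QuotientGroup.leftRel_apply.1 hab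
        refine Subtype.ext ?_
        show σ a = σ b
        have h2 : σ (a⁻¹ * b) = 1 := h1
        calc σ a = σ a * σ (a⁻¹ * b) := by rw [h2, mul_one]
          _ = σ b := by rw [← map_mul, mul_inv_cancel_left]
      · intro x y
        induction x using QuotientGroup.induction_on with | _ a =>
        induction y using QuotientGroup.induction_on with | _ b =>
        intro h
        have h1 : σ a = σ b := congrArg Subtype.val h
        refine QuotientGroup.eq.2 ?_
        show σ (a⁻¹ * b) = 1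
        calc σ (a⁻¹ * b) = σ a⁻¹ * σ b := map_mul _ _ _
          _ = σ a⁻¹ * σ a := by rw [h1]
          _ = 1 := by rw [← map_mul, inv_mul_cancel, map_one]
    exact Subgroup.finiteIndex_of_finite_quotient
  · have h3 : σ k = 1 := hk
    have h4 : σ k (b ⟨v, hv⟩) = b ⟨v, hv⟩ := by rw [h3]; rfl
    have h5 : b (τ k (b.symm (b ⟨v, hv⟩))) = b ⟨v, hv⟩ := h4
    rw [LinearEquiv.symm_apply_apply] at h5
    exact congrArg Subtype.val (b.injective h5)

/-- a homomorphism whose restriction to a subgroup of finite index is commutative has a kernel of finite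
index -/
theorem ker_fi (hfg : Group.FG K) (hnv : ¬ VirtIndicable K) {M : Type*} [Monoid M] (ρ : K →* M)
    {L : Subgroup K} (hL : L.FiniteIndex) (hc : ∀ a ∈ L, ∀ b ∈ L, ρ a * ρ b = ρ b * ρ a) :
    ρ.ker.FiniteIndex := by
  have hfgQ : Group.FG (K ⧸ ρ.ker) := Group.fg_of_surjective (QuotientGroup.mk'_surjective ρ.ker)
  by_contra hfi
  have hinf : Infinite (K ⧸ ρ.ker) := by
    by_contra h
    rw [not_infinite_iff_finite] at h
    exact hfi Subgroup.finiteIndex_of_finite_quotient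
  apply hnv
  refine H731.VirtIndicable.of_surj (QuotientGroup.mk' ρ.ker) (QuotientGroup.mk'_surjective _) ?_
  refine H213.Grp.virtInd_of_comm (L.map (QuotientGroup.mk' ρ.ker)) ?_ ?_
  · have h1 := hL.index_ne_zero
    refine ⟨fun h0 => h1 ?_⟩
    have h2 := Subgroup.index_map_dvd L (QuotientGroup.mk'_surjective ρ.ker)
    rw [h0] at h2
    have h3 : ∃ x, x ∈ L := ⟨1, L.one_mem⟩
    exact absurd (Subgroup.index_map_dvd L (QuotientGroup.mk'_surjective ρ.ker)) (by
      rw [h0]
      intro h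
      exact h1 (Nat.eq_zero_of_zero_dvd h))
  · rintro _ ⟨a, ha, rfl⟩ _ ⟨b, hb, rfl⟩
    rw [← map_mul, ← map_mul]
    refine QuotientGroup.eq.2 ?_
    show ρ ((a * b)⁻¹ * (b * a)) = 1
    rw [map_mul, map_mul ρ b a, ← hc a ha b hb, ← map_mul, ← map_mul, inv_mul_cancel, map_one]

variable {V : Type} [NormedAddCommGroup V] [InnerProductSpace ℂ V] [FiniteDimensional ℂ V]

/-- the elements of an isometric representation are determined by the character -/
theorem eq_of_tr (ρ : K →* (V →ₗ[ℂ] V)) (hiso : ∀ k v, ‖ρ k v‖ = ‖v‖) {a b : K}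
    (h : ∀ k, LinearMap.trace ℂ V (ρ (k * a)) = LinearMap.trace ℂ V (ρ (k * b))) : ρ a = ρ b := by
  classical
  let e := stdOrthonormalBasis ℂ V
  let U : K → (V →ₗᵢ[ℂ] V) := fun k => ⟨ρ k, hiso k⟩
  have hU : ∀ k x, U k x = ρ k x := fun k x => rfl
  have hin : ∀ x y : V, ⟪ρ b x, ρ a y⟫_ℂ = ⟪x, ρ (b⁻¹ * a) y⟫_ℂ := by
    intro x y
    have h1 := (U b⁻¹).inner_map_map (ρ b x) (ρ a y)
    rw [hU, hU] at h1
    rw [← h1]
    have h2 : ρ b⁻¹ (ρ b x) = x := by
      have : (ρ b⁻¹ * ρ b) x = x := by rw [← map_mul, inv_mul_cancel, map_one]; rfl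
      exact this
    rw [h2, map_mul]
    rfl
  have h1 : LinearMap.trace ℂ V (ρ (b⁻¹ * a)) = (finrank ℂ V : ℂ) := by
    rw [h b⁻¹, inv_mul_cancel, map_one]
    exact LinearMap.trace_one ℂ V
  have h2 : ∑ i, ⟪ρ b (e i), ρ a (e i)⟫_ℂ = (finrank ℂ V : ℂ) := by
    rw [← h1, LinearMap.trace_eq_sum_inner _ e]
    exact Finset.sum_congr rfl fun i _ => hin _ _
  have h3 : ∑ i, ‖ρ a (e i) - ρ b (e i)‖ ^ 2 = 0 := by
    have h4 : ∀ i, ‖ρ a (e i) - ρ b (e i)‖ ^ 2 = 2 - 2 * (⟪ρ b (e i), ρ a (e i)⟫_ℂ).re := by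
      intro i
      rw [@norm_sub_sq ℂ, hiso, hiso, e.orthonormal.1 i, ← inner_conj_symm (ρ a (e i))]
      simp only [RCLike.re_to_complex, Complex.conj_re]
      ring
    simp only [h4]
    rw [Finset.sum_sub_distrib, ← Finset.mul_sum, ← Complex.re_sum, h2]
    simp
    ring
  refine e.toBasis.ext fun i => ?_
  have h4 := (Finset.sum_eq_zero_iff_of_nonneg (fun i _ => by positivity)).1 h3 i (Finset.mem_univ _)
  rw [OrthonormalBasis.coe_toBasis]
  exact sub_eq_zero.1 (norm_eq_zero.1 (pow_eq_zero_iff two_ne_zero |>.1 h4))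

/-- **a unitary representation of `K` whose character is invariant under `Γ` has finite image** -/
theorem ker_fi_of_tr (hKn : K.Normal) (hfg : Group.FG K) (hnv : ¬ VirtIndicable K)
    (hfr : FinRepIn Γ K) (ρ : K →* (V →ₗ[ℂ] V)) (hiso : ∀ k v, ‖ρ k v‖ = ‖v‖)
    (hχ : ∀ (g : Γ) (k : K), LinearMap.trace ℂ V (ρ (MulAut.conjNormal g k)) =
      LinearMap.trace ℂ V (ρ k)) : ρ.ker.FiniteIndex := by
  classical
  set χ : K → K → ℂ := fun k k' => LinearMap.trace ℂ V (ρ (k * k')) with hχd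
  set 𝒱 : Submodule ℂ (K → ℂ) := Submodule.span ℂ (range χ) with h𝒱
  set T : Γ → (K → ℂ) → (K → ℂ) := fun g φ k' => φ (MulAut.conjNormal g⁻¹ k') with hT
  have hTχ : ∀ g k, T g (χ k) = χ (MulAut.conjNormal g k) := by
    intro g k
    funext k'
    simp only [hT, hχd]
    rw [← hχ g (k * MulAut.conjNormal g⁻¹ k'), map_mul]
    congr 3
    rw [map_inv]
    exact MulAut.apply_inv_self _ _ _
  have hTadd : ∀ g φ φ', T g (φ + φ') = T g φ + T g φ' := fun g φ φ' => rfl
  have hTsmul : ∀ g (c : ℂ) φ, T g (c • φ) = c • T g φ := fun g c φ => rfl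
  have hfd : FiniteDimensional ℂ 𝒱 := by
    let L : (V →ₗ[ℂ] V) →ₗ[ℂ] (K → ℂ) :=
      { toFun := fun B k' => LinearMap.trace ℂ V (B * ρ k')
        map_add' := fun B B' => by
          funext k'
          rw [add_mul, map_add]
          rfl
        map_smul' := fun c B => by
          funext k'
          rw [smul_mul_assoc, map_smul]
          rfl }
    have h1 : 𝒱 ≤ LinearMap.range L := by
      rw [h𝒱, Submodule.span_le]
      rintro _ ⟨k, rfl⟩
      refine ⟨ρ k, ?_⟩
      funext k'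
      show LinearMap.trace ℂ V (ρ k * ρ k') = _
      rw [← map_mul]
    exact Submodule.finiteDimensional_of_le h1
  obtain ⟨L, hL, htriv⟩ := exists_trivial_onG hfr T (𝒱.restrictScalars ℝ)
    (by
      have : FiniteDimensional ℝ 𝒱 := FiniteDimensional.complexToReal 𝒱
      exact this)
    (fun g v hv => by
      have hv' : v ∈ 𝒱 := hv
      show T g v ∈ 𝒱
      refine Submodule.span_induction (p := fun v _ => T g v ∈ 𝒱) ?_ ?_ ?_ ?_ hv'
      · rintro _ ⟨k, rfl⟩
        rw [hTχ]
        exact Submodule.subset_span ⟨_, rfl⟩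
      · exact 𝒱.zero_mem
      · intro x y _ _ hx hy
        rw [hTadd]
        exact 𝒱.add_mem hx hy
      · intro c x _ hx
        rw [hTsmul]
        exact 𝒱.smul_mem c hx)
    (fun g v _ v' _ => hTadd g v v')
    (fun g c v _ => rfl)
    (fun v _ => by
      funext k'
      simp only [hT, inv_one, map_one, MulAut.one_apply])
    (fun g g' v _ => by
      funext k'
      simp only [hT, mul_inv_rev, map_mul, MulAut.mul_apply])
  refine ker_fi hfg hnv ρ hL fun a ha b _ => ?_
  have h1 : ρ (MulAut.conjNormal (a : Γ)⁻¹ b) = ρ b := by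
    refine eq_of_tr ρ hiso fun k => ?_
    exact congrFun (htriv a ha (χ k) (Submodule.subset_span ⟨k, rfl⟩)) b
  have h2 : MulAut.conjNormal (a : Γ)⁻¹ b = a⁻¹ * b * a := by
    ext
    rw [MulAut.conjNormal_apply]
    simp
  rw [h2, map_mul] at h1
  calc ρ a * ρ b = ρ a * (ρ (a⁻¹ * b) * ρ a) := by rw [h1]
    _ = ρ b * ρ a := by rw [← mul_assoc, ← map_mul, mul_inv_cancel_left]

end Vale.Agent.P284.H15.G
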