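import Vale.Agent.P284.H15.G.Loc2
import Vale.Agent.P284.H478.G.S

/-!
# P284 (helper15), target G, G1: off a meagre set the dimension of `NN ∩ ker Q` is constant; the values
of `Θ` are separable
-/

open scoped Manifold ContDiff Topology InnerProductSpace ComplexConjugate
open Filter Set Metric Module

noncomputable section

namespace Vale.Agent.P284.H15.G

open Vale.Agent.P272.K Vale.Agent.P284.H894.G Vale.Agent.P284.H894.V Vale.Agent.P284.H894.W
  Vale.Agent.P284.H213.Grp Vale.Agent.P284.H619 Vale.Agent.P284.H885.Ker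

section
variable {n q : ℕ} {X : Type} [TopologicalSpace X] [ChartedSpace (Cm n) X]
  {E Γ : Type} [TopologicalSpace E] [Group Γ] [MulAction Γ E] {p : E → X}

/-- `E` is second countable -/
theorem secondCountable (n : ℕ) [ChartedSpace (Cm n) X] [T2Space X] [CompactSpace X]
    [ConnectedSpace E] (hp : IsGalois Γ p) : SecondCountableTopology E := by
  have h1 : Countable Γ := H221.countable_grp n hp
  have h2 : SigmaCompactSpace E := H221.sigmaCompact hp
  have h3 : SecondCountableTopology X := ChartedSpace.secondCountable_of_sigmaCompact (Cm n) X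
  choose φ hφ using fun y => hp.cov.isLocalHomeomorph y
  obtain ⟨s, hs, hcov⟩ := countable_cover_nhds_of_sigmaCompact (f := fun y => (φ y).source)
    fun y => (φ y).open_source.mem_nhds (hφ y).1
  have h4 : Countable s := hs.to_subtype
  have h5 : ∀ i : s, SecondCountableTopology ((φ i).source) := fun i =>
    (φ i).toHomeomorphSourceTarget.secondCountableTopology
  refine TopologicalSpace.secondCountableTopology_of_countable_cover
    (U := fun i : s => (φ i).source) (fun i => (φ i).open_source) ?_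
  rw [← hcov, biUnion_eq_iUnion]

variable {w : Chart n X → Cm n → Matrix (Fin n) (Fin n) ℂ} {B : ℝ} {F : E → Cm q}
  {W : Type} [NormedAddCommGroup W] [InnerProductSpace ℂ W]
  {Θ : E → Chart n X → (Cm n →L[ℂ] W)}

/-- **The values of `Θ` are separable.** -/
theorem sep_im [CompleteSpace W] [IsManifold 𝓘(ℂ, Cm n) ω X] [T2Space X] [CompactSpace X]
    [ConnectedSpace E] (hG : IsGalois Γ p) (hF : HolB p w F B) (hΘ : RelT p F W Θ) :
    TopologicalSpace.IsSeparable {a : W | ∃ (y : E) (e : Chart n X), Reg (n := n) p F y ∧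
      At e (p y) ∧ a ∈ imV p F Θ y e} := by
  have hsc : SecondCountableTopology E := secondCountable n hG
  have hbox : ∀ y : {y : E | Reg (n := n) p F y}, ∃ (N : Submodule ℂ (Cm n))
      (h : OpenPartialHomeomorph E (Cm q × N)) (D : Cm q × N → (Cm n →L[ℂ] W)) (δ : ℝ),
      Box p F Θ y N h D δ := fun y => exists_box hG.cov hF hΘ y.2
  choose N h D δ hb using hbox
  obtain ⟨C, hC, hcov⟩ := TopologicalSpace.isOpen_iUnion_countable (fun y => (hb y).U)
    (fun y => (hb y).U_open)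
  have h0 : ∀ y : E, Reg (n := n) p F y → ∃ c ∈ C, y ∈ (hb c).U := by
    intro y hy
    have h1 : y ∈ ⋃ c, (hb c).U := mem_iUnion.2 ⟨⟨y, hy⟩, (hb ⟨y, hy⟩).mem_U⟩
    rw [← hcov] at h1
    simpa using h1
  have hCc : Countable C := hC.to_subtype
  have h2 : TopologicalSpace.IsSeparable (⋃ c : C, (fun x : (Cm q × N c) × Cm n => D c x.1 x.2) ''
      (ball (F c, (0 : N c)) (δ c) ×ˢ univ)) := by
    refine TopologicalSpace.IsSeparable.iUnion fun c => ?_
    refine ContinuousOn.isSeparable_image ?_ (TopologicalSpace.IsSeparable.of_separableSpace _)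
    rintro ⟨x, ξ⟩ ⟨hx, -⟩
    have h3 : ContinuousAt (fun x : (Cm q × N c) × Cm n => D c x.1 x.2) (x, ξ) := by
      have h4 : ContinuousAt (fun x : (Cm q × N c) × Cm n => D c x.1) (x, ξ) :=
        ContinuousAt.comp (f := Prod.fst) (g := D c) (((hb c).an x hx).continuousAt)
          continuousAt_fst
      exact h4.clm_apply continuousAt_snd
    exact h3.continuousWithinAt
  refine h2.mono ?_
  rintro a ⟨y, e, hy, he, ha⟩
  obtain ⟨c, hc, hyc⟩ := h0 y hy
  rw [(hb c).im_of hyc he] at ha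
  obtain ⟨ξ, rfl⟩ := ha
  exact mem_iUnion.2 ⟨⟨c, hc⟩, (h c y, ξ), ⟨hyc.2, mem_univ _⟩, rfl⟩

/-- **Off a meagre set the dimension of `NN ∩ ker Q` is constant.** -/
theorem dim_const [CompleteSpace W] [IsManifold 𝓘(ℂ, Cm n) ω X] [T2Space X] [CompactSpace X]
    [ConnectedSpace E] (hG : IsGalois Γ p) (hF : HolB p w F B) (hΘ : RelT p F W Θ)
    {M₀ : Set (Cm q)} (hM₀ : IsMeagre M₀) (hgd : ∀ t ∉ M₀, Gd p F Θ t) {r : ℕ} {y₀ : E}
    {e₀ : Chart n X} (hy₀ : Reg (n := n) p F y₀) (he₀ : At e₀ (p y₀))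
    (hr₀ : r ≤ vrk p F Θ y₀ e₀)
    (hmax : ∀ y (e : Chart n X), Reg (n := n) p F y → At e (p y) → vrk p F Θ y e ≤ r)
    (Q : W →ₗ[ℂ] W) (hQ : Continuous Q) :
    ∃ (d : ℕ) (M : Set (Cm q)), IsMeagre M ∧ ∀ t ∉ M,
      (∃ (y : E) (e : Chart n X), F y = t ∧ At e (p y) ∧ vrk p F Θ y e = r) ∧
      finrank ℂ (NN p F Θ t r ⊓ LinearMap.ker Q : Submodule ℂ W) = d := by
  classical
  have hsc : SecondCountableTopology E := secondCountable n hG
  have hconn := reg_conn (n := n) hG.cov hF ⟨y₀, hy₀⟩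
  have hbox : ∀ y : {y : E | Reg (n := n) p F y}, ∃ (N : Submodule ℂ (Cm n))
      (h : OpenPartialHomeomorph E (Cm q × N)) (D : Cm q × N → (Cm n →L[ℂ] W)) (δ : ℝ),
      Box p F Θ y N h D δ := fun y => exists_box hG.cov hF hΘ y.2
  choose N h D δ hb using hbox
  choose d M hM hd using fun y => box_const hG.cov hF hΘ hconn hy₀ he₀ hr₀ hmax (hb y) Q hQ
  have hball : ∀ (c : {y : E | Reg (n := n) p F y}) (y : E), y ∈ (hb c).U →
      F y ∈ ball (F c) (δ c) := by
    intro c y hy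
    have h1 : h c y ∈ ball (F c, (0 : N c)) (δ c) := hy.2
    rw [← ball_prod_same] at h1
    rw [← (hb c).fst_eq hy]
    exact h1.1
  -- `d` is locally constant
  have hloc : ∀ c c' : {y : E | Reg (n := n) p F y}, (c' : E) ∈ (hb c).U → d c' = d c := by
    intro c c' hcc
    have h1 : (hb c).U ∩ (hb c').U ∈ 𝓝 (c' : E) :=
      ((hb c).U_open.inter (hb c').U_open).mem_nhds ⟨hcc, (hb c').mem_U⟩
    have h2 : F '' ((hb c).U ∩ (hb c').U) ∈ 𝓝 (F c') := by
      rw [← reg_map hG.cov hF c'.2]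
      exact image_mem_map h1
    have h3 : Dense ((M₀ ∪ (M c ∪ M c'))ᶜ) :=
      dense_of_mem_residual (hM₀.union ((hM c).union (hM c')))
    obtain ⟨t, ht1, ht2⟩ := h3.inter_nhds_nonempty h2
    obtain ⟨y, ⟨hy1, hy2⟩, rfl⟩ := ht2
    have hg : Gd p F Θ (F y) := hgd _ fun h4 => ht1 (Or.inl h4)
    have h5 := (hd c (F y) (hball c y hy1) (fun h4 => ht1 (Or.inr (Or.inl h4))) hg).2
    have h6 := (hd c' (F y) (hball c' y hy2) (fun h4 => ht1 (Or.inr (Or.inr h4))) hg).2
    exact h6.symm.trans h5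
  set d' : E → ℕ := fun y => if hy : Reg (n := n) p F y then d ⟨y, hy⟩ else 0 with hd'
  have hd'e : ∀ c : {y : E | Reg (n := n) p F y}, d' c = d c := fun c => by
    have h1 : Reg (n := n) p F (c : E) := c.2
    exact dif_pos h1
  have hcont : ContinuousOn d' {y : E | Reg (n := n) p F y} := by
    intro y hy
    have h1 : ∀ᶠ y' in 𝓝 y, d' y' = d' y := by
      filter_upwards [(hb ⟨y, hy⟩).U_open.mem_nhds (hb ⟨y, hy⟩).mem_U] with y' hy'
      rw [hd'e ⟨y, hy⟩, hd'e ⟨y', (hb ⟨y, hy⟩).reg_of hy'⟩]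
      exact hloc ⟨y, hy⟩ ⟨y', _⟩ hy'
    have h2 : Tendsto d' (𝓝 y) (𝓝 (d' y)) := tendsto_nhds_of_eventually_eq h1
    exact h2.mono_left nhdsWithin_le_nhds
  have hall : ∀ c : {y : E | Reg (n := n) p F y}, d c = d ⟨y₀, hy₀⟩ := by
    intro c
    rw [← hd'e, ← hd'e]
    exact hconn.constant hcont c.2 hy₀
  obtain ⟨C, hC, hcov⟩ := TopologicalSpace.isOpen_iUnion_countable (fun y => (hb y).U)
    (fun y => (hb y).U_open)
  have hCc : Countable C := hC.to_subtype
  refine ⟨d ⟨y₀, hy₀⟩, M₀ ∪ ⋃ c : C, M c, hM₀.union (isMeagre_iUnion fun c => hM c),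
    fun t ht => ?_⟩
  have hg : Gd p F Θ t := hgd t fun h1 => ht (Or.inl h1)
  obtain ⟨y, hyt⟩ := hg.conn.nonempty
  have hyt' : F y = t := hyt
  have hyr := hg.reg y hyt'
  have h1 : y ∈ ⋃ c, (hb c).U := mem_iUnion.2 ⟨⟨y, hyr⟩, (hb ⟨y, hyr⟩).mem_U⟩
  rw [← hcov] at h1
  obtain ⟨c, hc, hyc⟩ : ∃ c ∈ C, y ∈ (hb c).U := by simpa using h1
  have h2 := hd c t (by rw [← hyt']; exact hball c y hyc)
    (fun h3 => ht (Or.inr (mem_iUnion.2 ⟨⟨c, hc⟩, h3⟩))) hg
  rw [← hall c]
  exact h2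

end

end Vale.Agent.P284.H15.G
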