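import Mathlib.Analysis.InnerProductSpace.Trace
import Mathlib.LinearAlgebra.Eigenspace.Triangularizable
import Mathlib.Algebra.DirectSum.LinearMap
import Mathlib.Analysis.Analytic.IsolatedZeros
import Mathlib.Analysis.Analytic.Uniqueness
import Mathlib.Analysis.Analytic.Constructions
import Mathlib.Analysis.Complex.Basic
import Mathlib.Analysis.Complex.Polynomial.Basic
import Mathlib.Topology.Baire.Lemmas
import Mathlib.LinearAlgebra.Dual.Lemmas
import Mathlib.Analysis.InnerProductSpace.Orthonormal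

/-!
# P284 (helper15), target G, G1: linear algebra

The dimension of the common kernel of covectors which depend analytically on a parameter is constant off a
nowhere dense set; the eigenvalues of an isometry with eigenvectors in a separable set are countable; the
trace of an isometry is determined by the multiplicities of the eigenvalues.
-/

open scoped Topology InnerProductSpace ComplexConjugate
open Filter Set Metric Module

noncomputable section

namespace Vale.Agent.P284.H15.G

/-! ### Covectors depending analytically on a parameter -/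

section rank
variable {r : ℕ} {I : Type*}

/-- the common kernel -/
def cker (β : I → ((Fin r → ℂ) →ₗ[ℂ] ℂ)) : Submodule ℂ (Fin r → ℂ) := ⨅ i, LinearMap.ker (β i)

theorem mem_cker {β : I → ((Fin r → ℂ) →ₗ[ℂ] ℂ)} {c : Fin r → ℂ} :
    c ∈ cker β ↔ ∀ i, β i c = 0 := by
  simp only [cker, Submodule.mem_iInf, LinearMap.mem_ker]

theorem cker_finrank (β : I → ((Fin r → ℂ) →ₗ[ℂ] ℂ)) :
    finrank ℂ (Submodule.span ℂ (range β)) + finrank ℂ (cker β) = r := by
  have h1 : (Submodule.span ℂ (range β)).dualCoannihilator = cker β := by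
    ext c
    rw [Submodule.mem_dualCoannihilator, mem_cker]
    constructor
    · exact fun h i => h _ (Submodule.subset_span ⟨i, rfl⟩)
    · intro h φ hφ
      refine Submodule.span_induction (p := fun φ _ => φ c = 0) ?_ ?_ ?_ ?_ hφ
      · rintro _ ⟨i, rfl⟩
        exact h i
      · rfl
      · intro x y _ _ hx hy
        rw [LinearMap.add_apply, hx, hy, add_zero]
      · intro a x _ hx
        rw [LinearMap.smul_apply, hx, smul_zero]
  have h2 := Subspace.finrank_add_finrank_dualCoannihilator_eq (Submodule.span ℂ (range β))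
  rw [h1] at h2
  rw [h2, finrank_fin_fun]

/-- independent covectors are independent on suitable vectors -/
theorem exists_dual {k : ℕ} {β : Fin k → ((Fin r → ℂ) →ₗ[ℂ] ℂ)} (h : LinearIndependent ℂ β) :
    ∃ c : Fin k → (Fin r → ℂ), (Matrix.of fun j l => β j (c l)) = 1 := by
  have hs : Function.Surjective (LinearMap.pi β : (Fin r → ℂ) →ₗ[ℂ] (Fin k → ℂ)) := by
    rw [← LinearMap.range_eq_top]
    by_contra hne
    obtain ⟨φ, hφ, hle⟩ := Submodule.exists_le_ker_of_lt_top _ (lt_top_iff_ne_top.2 hne)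
    apply hφ
    have h1 : ∑ j, φ (Pi.single j 1) • β j = 0 := by
      refine LinearMap.ext fun c => ?_
      have h2 : φ (LinearMap.pi β c) = 0 := hle ⟨c, rfl⟩
      have h3 : LinearMap.pi β c = ∑ j, β j c • (Pi.single j 1 : Fin k → ℂ) := by
        funext i
        simp [Finset.sum_apply, Pi.single_apply]
      rw [h3, map_sum] at h2
      simp only [map_smul, smul_eq_mul] at h2
      simp only [LinearMap.sum_apply, LinearMap.smul_apply, smul_eq_mul, LinearMap.zero_apply]
      rw [← h2]
      exact Finset.sum_congr rfl fun j _ => mul_comm _ _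
    have h4 := Fintype.linearIndependent_iff.1 h _ h1
    refine LinearMap.pi_ext' fun j => ?_
    ext
    simpa using h4 j
  choose c hc using fun l : Fin k => hs (Pi.single l 1)
  refine ⟨c, ?_⟩
  ext j l
  have h1 := congrFun (hc l) j
  rw [LinearMap.pi_apply] at h1
  rw [Matrix.of_apply, h1, Matrix.one_apply, Pi.single_apply]

theorem indep_of_det {V : Type*} [AddCommGroup V] [Module ℂ V] {k : ℕ} {v : Fin k → V}
    {η : Fin k → (V →ₗ[ℂ] ℂ)} (h : (Matrix.of fun j l => η l (v j)).det ≠ 0) :
    LinearIndependent ℂ v := by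
  rw [Fintype.linearIndependent_iff]
  intro a ha
  have h1 : a = 0 := by
    refine Matrix.eq_zero_of_vecMul_eq_zero h ?_
    funext l
    have h2 := congrArg (η l) ha
    rw [map_sum, map_zero] at h2
    simp only [Matrix.vecMul, dotProduct, Matrix.of_apply, Pi.zero_apply]
    rw [← h2]
    exact Finset.sum_congr rfl fun j _ => by rw [map_smul, smul_eq_mul]
  intro i
  rw [h1]
  rfl

theorem an_det {T : Type*} [NormedAddCommGroup T] [NormedSpace ℂ T] {k : ℕ}
    {M : T → Matrix (Fin k) (Fin k) ℂ} {s : Set T}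
    (h : ∀ i j, AnalyticOnNhd ℂ (fun t => M t i j) s) : AnalyticOnNhd ℂ (fun t => (M t).det) s := by
  intro t ht
  simp only [Matrix.det_apply]
  refine Finset.analyticAt_fun_sum _ fun σ _ => ?_
  have h1 : AnalyticAt ℂ (fun t => ∏ i, M t (σ i) i) t :=
    Finset.analyticAt_fun_prod _ fun i _ => h _ _ t ht
  rcases Int.units_eq_one_or (Equiv.Perm.sign σ) with h2 | h2
  · simpa [h2] using h1
  · refine h1.neg.congr (Eventually.of_forall fun t => ?_)
    simp [h2]

variable {T : Type*} [NormedAddCommGroup T] [NormedSpace ℂ T]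

/-- the dimension of the common kernel is constant off a nowhere dense set -/
theorem cker_const {t₀ : T} {δ : ℝ} (hδ : 0 < δ) {β : T → I → ((Fin r → ℂ) →ₗ[ℂ] ℂ)}
    (hβ : ∀ i c, AnalyticOnNhd ℂ (fun t => β t i c) (ball t₀ δ)) :
    ∃ (d : ℕ) (g : T → ℂ), AnalyticOnNhd ℂ g (ball t₀ δ) ∧ (∃ t ∈ ball t₀ δ, g t ≠ 0) ∧
      ∀ t ∈ ball t₀ δ, g t ≠ 0 → finrank ℂ (cker (β t)) = d := by
  classical
  set R : T → ℕ := fun t => finrank ℂ (Submodule.span ℂ (range (β t))) with hR
  have hRle : ∀ t, R t ≤ r := fun t => by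
    have := cker_finrank (β t)
    simp only [hR]
    omega
  obtain ⟨t₁, ht₁, hmax⟩ : ∃ t₁ ∈ ball t₀ δ, ∀ t ∈ ball t₀ δ, R t ≤ R t₁ := by
    set S : Set ℕ := R '' ball t₀ δ with hS
    have hne : S.Nonempty := ⟨_, t₀, mem_ball_self hδ, rfl⟩
    have hbd : BddAbove S := ⟨r, by
      rintro _ ⟨t, -, rfl⟩
      exact hRle t⟩
    obtain ⟨t₁, h1, h2⟩ := Nat.sSup_mem hne hbd
    exact ⟨t₁, h1, fun t ht => by
      rw [h2]
      exact le_csSup hbd ⟨t, ht, rfl⟩⟩
  obtain ⟨f, hf1, -, hf3⟩ := Submodule.exists_fun_fin_finrank_span_eq ℂ (range (β t₁))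
  choose i hi using hf1
  have hind : LinearIndependent ℂ fun j => β t₁ (i j) := by
    have : (fun j => β t₁ (i j)) = f := funext hi
    rw [this]
    exact hf3
  obtain ⟨c, hc⟩ := exists_dual hind
  refine ⟨r - R t₁, fun t => (Matrix.of fun j l => β t (i j) (c l)).det, ?_, ⟨t₁, ht₁, ?_⟩, ?_⟩
  · exact an_det fun j l => hβ (i j) (c l)
  · show (Matrix.of fun j l => β t₁ (i j) (c l)).det ≠ 0
    rw [hc, Matrix.det_one]
    exact one_ne_zero
  · intro t ht hg
    have h1 : LinearIndependent ℂ fun j => β t (i j) := by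
      refine indep_of_det (η := fun l => (LinearMap.applyₗ (c l) :
        ((Fin r → ℂ) →ₗ[ℂ] ℂ) →ₗ[ℂ] ℂ)) ?_
      exact hg
    have h2 : R t₁ ≤ R t := by
      have h3 := finrank_span_eq_card h1
      rw [Fintype.card_fin] at h3
      have h4 : Submodule.span ℂ (range fun j => β t (i j)) ≤ Submodule.span ℂ (range (β t)) :=
        Submodule.span_mono (by
          rintro _ ⟨j, rfl⟩
          exact ⟨i j, rfl⟩)
      have h5 := Submodule.finrank_mono h4
      rw [h3] at h5
      exact h5
    have h3 := hmax t ht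
    have h4 := cker_finrank (β t)
    simp only [hR] at h2 h3 ⊢
    omega

end rank

/-! ### Eigenvalues of isometries -/

section eig
variable {W : Type*} [NormedAddCommGroup W] [InnerProductSpace ℂ W]

theorem eig_norm {U : W →ₗᵢ[ℂ] W} {lam : ℂ} {a : W} (ha : a ≠ 0) (h : U a = lam • a) :
    ‖lam‖ = 1 := by
  have h1 := U.norm_map a
  rw [h, norm_smul] at h1
  have h2 : ‖a‖ ≠ 0 := norm_ne_zero_iff.2 ha
  field_simp at h1
  exact h1

theorem eig_orth {U : W →ₗᵢ[ℂ] W} {lam mu : ℂ} {a b : W} (ha : a ≠ 0) (h : U a = lam • a)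
    (h' : U b = mu • b) (hne : lam ≠ mu) : ⟪a, b⟫_ℂ = 0 := by
  have h1 := U.inner_map_map a b
  rw [h, h', inner_smul_left, inner_smul_right] at h1
  have h2 : conj lam * lam = 1 := by
    rw [← Complex.normSq_eq_conj_mul_self, Complex.normSq_eq_norm_sq, eig_norm ha h]
    simp
  have h3 : (conj lam * mu - conj lam * lam) * ⟪a, b⟫_ℂ = 0 := by
    rw [sub_mul, h2, one_mul, mul_assoc, h1, sub_self]
  rcases mul_eq_zero.1 h3 with h4 | h4
  · rw [← mul_sub] at h4
    rcases mul_eq_zero.1 h4 with h5 | h5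
    · rw [h5, zero_mul] at h2
      exact absurd h2 zero_ne_one
    · exact absurd (sub_eq_zero.1 h5).symm hne
  · exact h4

/-- the eigenvalues with eigenvectors in a separable set are countable -/
theorem countable_eig {S : Set W} (hS : TopologicalSpace.IsSeparable S) (U : W →ₗᵢ[ℂ] W) :
    {lam : ℂ | ∃ a ∈ S, a ≠ 0 ∧ U a = lam • a}.Countable := by
  set L : Set ℂ := {lam : ℂ | ∃ a ∈ S, a ≠ 0 ∧ U a = lam • a} with hL
  set S' : Submodule ℂ W := Submodule.span ℂ S with hS'
  have hsep : TopologicalSpace.IsSeparable (S' : Set W) := hS.span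
  have : TopologicalSpace.SeparableSpace S' := hsep.separableSpace
  choose a haS ha0 hae using fun l : L => l.2
  set b : L → S' := fun l => (((‖a l‖⁻¹ : ℝ) : ℂ)) • (⟨a l, Submodule.subset_span (haS l)⟩ : S')
    with hb
  have hbn : ∀ l, ‖b l‖ = 1 := by
    intro l
    have h1 : ‖a l‖ ≠ 0 := norm_ne_zero_iff.2 (ha0 l)
    rw [hb]
    simp only [norm_smul, Complex.norm_real, norm_inv, norm_norm]
    exact inv_mul_cancel₀ h1
  have hbo : ∀ l l', l ≠ l' → ⟪b l, b l'⟫_ℂ = 0 := by
    intro l l' hne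
    have h1 : ⟪a l, a l'⟫_ℂ = 0 := eig_orth (ha0 l) (hae l) (hae l') fun h => hne (Subtype.ext h)
    rw [hb]
    simp only [inner_smul_left, inner_smul_right]
    have h2 : ⟪(⟨a l, Submodule.subset_span (haS l)⟩ : S'),
      (⟨a l', Submodule.subset_span (haS l')⟩ : S')⟫_ℂ = ⟪a l, a l'⟫_ℂ := rfl
    rw [h2, h1, mul_zero, mul_zero]
  have h1 : Countable L := by
    refine Pairwise.countable_of_isOpen_disjoint (s := fun l : L => ball (b l) (1 / 2)) ?_
      (fun _ => isOpen_ball) fun l => ⟨b l, mem_ball_self (by norm_num)⟩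
    intro l l' hne
    refine ball_disjoint_ball ?_
    have h4 : ‖b l - b l'‖ ^ 2 = 2 := by
      rw [@norm_sub_sq ℂ, hbn, hbn, hbo l l' hne]
      norm_num
    rw [dist_eq_norm]
    have h5 := norm_nonneg (b l - b l')
    nlinarith
  exact Set.countable_coe_iff.1 h1

end eig

/-! ### The trace of an isometry -/

section trace
variable {V : Type*} [NormedAddCommGroup V] [InnerProductSpace ℂ V] [FiniteDimensional ℂ V]

theorem iSup_eig (U : V →ₗᵢ[ℂ] V) : ⨆ mu, Module.End.eigenspace U.toLinearMap mu = ⊤ := by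
  set S : Submodule ℂ V := ⨆ mu, Module.End.eigenspace U.toLinearMap mu with hS
  have hmap : ∀ x ∈ S, U x ∈ S := by
    intro x hx
    refine Submodule.iSup_induction' _ (motive := fun x _ => U x ∈ S) ?_ ?_ ?_ hx
    · intro mu y hy
      have h1 : U y = mu • y := Module.End.mem_eigenspace_iff.1 hy
      rw [h1]
      exact S.smul_mem _ (Submodule.mem_iSup_of_mem mu hy)
    · rw [map_zero]
      exact S.zero_mem
    · intro y z _ _ hy hz
      rw [map_add]
      exact S.add_mem hy hz
  have hsurj : ∀ x ∈ S, ∃ y ∈ S, U y = x := by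
    have h1 : Function.Injective (U.toLinearMap.restrict hmap) := by
      intro x y hxy
      exact Subtype.ext (U.injective (congrArg Subtype.val hxy))
    have h2 := LinearMap.surjective_of_injective h1
    intro x hx
    obtain ⟨y, hy⟩ := h2 ⟨x, hx⟩
    exact ⟨y, y.2, congrArg Subtype.val hy⟩
  have horth : ∀ x ∈ Sᗮ, U x ∈ Sᗮ := by
    intro x hx
    rw [Submodule.mem_orthogonal] at hx ⊢
    intro s hs
    obtain ⟨y, hy, rfl⟩ := hsurj s hs
    rw [U.inner_map_map]
    exact hx y hy
  by_contra hne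
  have h3 : Sᗮ ≠ ⊥ := fun h => hne (Submodule.orthogonal_eq_bot_iff.1 h)
  have : Nontrivial Sᗮ := (Submodule.nontrivial_iff_ne_bot).2 h3
  obtain ⟨mu, hmu⟩ := Module.End.exists_eigenvalue (U.toLinearMap.restrict horth)
  obtain ⟨x, hx⟩ := hmu.exists_hasEigenvector
  have h4 : U (x : V) = mu • (x : V) := congrArg Subtype.val hx.apply_eq_smul
  have h5 : (x : V) ∈ S := Submodule.mem_iSup_of_mem mu (Module.End.mem_eigenspace_iff.2 h4)
  have h6 : (x : V) = 0 := by
    have h7 := (Submodule.mem_orthogonal S (x : V)).1 x.2 (x : V) h5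
    exact inner_self_eq_zero.1 h7
  exact hx.2 (Subtype.ext h6)

/-- the trace of an isometry -/
theorem trace_eig (U : V →ₗᵢ[ℂ] V) : LinearMap.trace ℂ V U.toLinearMap =
    ∑ᶠ mu : ℂ, mu * (finrank ℂ (Module.End.eigenspace U.toLinearMap mu) : ℂ) := by
  classical
  have hds := DirectSum.isInternal_submodule_of_iSupIndep_of_iSup_eq_top
    (Module.End.eigenspaces_iSupIndep U.toLinearMap) (iSup_eig U)
  have hfin : {mu | Module.End.eigenspace U.toLinearMap mu ≠ ⊥}.Finite :=
    WellFoundedGT.finite_ne_bot_of_iSupIndep (Module.End.eigenspaces_iSupIndep U.toLinearMap)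
  have hmaps : ∀ mu, MapsTo U.toLinearMap (Module.End.eigenspace U.toLinearMap mu)
      (Module.End.eigenspace U.toLinearMap mu) := by
    intro mu x hx
    have h1 : U.toLinearMap x = mu • x := Module.End.mem_eigenspace_iff.1 hx
    rw [h1]
    exact Submodule.smul_mem _ _ hx
  rw [LinearMap.trace_eq_sum_trace_restrict' hds hfin hmaps]
  rw [finsum_eq_sum_of_support_subset (s := hfin.toFinset)]
  · refine Finset.sum_congr rfl fun mu _ => ?_
    have h1 : U.toLinearMap.restrict (hmaps mu) = mu • LinearMap.id := by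
      ext x
      exact Module.End.mem_eigenspace_iff.1 x.2
    rw [h1, map_smul, LinearMap.trace_id, smul_eq_mul]
  · intro mu hmu
    rw [Function.mem_support] at hmu
    rw [Finset.mem_coe, Set.Finite.mem_toFinset, Set.mem_ofPred_eq]
    intro h0
    apply hmu
    rw [h0, finrank_bot]
    simp

end trace

end Vale.Agent.P284.H15.G
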