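import Vale.Agent.P284.H15.G.Triv
import Vale.Agent.P284.H15.G.Lin
import Vale.Agent.P284.H885.Ker2
import Vale.Agent.P284.H221.GF

/-!
# P284 (helper15), target G, G1: boxes around the regular points; the rank of `Θ`
-/

open scoped Manifold ContDiff Topology InnerProductSpace ComplexConjugate
open Filter Set Metric Module

noncomputable section

namespace Vale.Agent.P284.H15.G

open Vale.Agent.P272.K Vale.Agent.P284.H894.G Vale.Agent.P284.H894.V Vale.Agent.P284.H894.W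
  Vale.Agent.P284.H213.Grp Vale.Agent.P284.H619 Vale.Agent.P284.H885.Ker

/-! ### minors -/

section minors
variable {V W : Type*} [NormedAddCommGroup V] [NormedSpace ℂ V] [FiniteDimensional ℂ V]
  [NormedAddCommGroup W] [InnerProductSpace ℂ W]

omit [FiniteDimensional ℂ V] in
theorem indep_of_minor {r : ℕ} {A : V →L[ℂ] W} {η : Fin r → W} {ξ : Fin r → V}
    (h : (Matrix.of fun i j => ⟪η i, A (ξ j)⟫_ℂ).det ≠ 0) :
    LinearIndependent ℂ (fun j => A (ξ j)) := by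
  refine indep_of_det (η := fun l => (innerSL ℂ (η l) : W →ₗ[ℂ] ℂ)) ?_
  rw [← Matrix.det_transpose]
  exact h

theorem rank_of_minor {r : ℕ} {A : V →L[ℂ] W} {η : Fin r → W} {ξ : Fin r → V}
    (h : (Matrix.of fun i j => ⟪η i, A (ξ j)⟫_ℂ).det ≠ 0) :
    r ≤ finrank ℂ (LinearMap.range (A : V →ₗ[ℂ] W)) := by
  have h1 := indep_of_minor h
  have h2 : LinearIndependent ℂ
      (fun j => (⟨A (ξ j), ξ j, rfl⟩ : LinearMap.range (A : V →ₗ[ℂ] W))) :=
    LinearIndependent.of_comp (LinearMap.range (A : V →ₗ[ℂ] W)).subtype h1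
  have h3 := h2.fintype_card_le_finrank
  rwa [Fintype.card_fin] at h3

theorem minor_of_rank {r : ℕ} {A : V →L[ℂ] W}
    (h : r ≤ finrank ℂ (LinearMap.range (A : V →ₗ[ℂ] W))) :
    ∃ (η : Fin r → W) (ξ : Fin r → V), (Matrix.of fun i j => ⟪η i, A (ξ j)⟫_ℂ).det ≠ 0 := by
  classical
  let b := Module.finBasis ℂ (LinearMap.range (A : V →ₗ[ℂ] W))
  have hb : ∀ i, ∃ v, A v = b i := fun i => (b i).2
  choose ξ hξ using hb
  have h1 : LinearIndependent ℂ (fun j : Fin r => A (ξ (Fin.castLE h j))) := by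
    have h2 : LinearIndependent ℂ (fun i => ((b i : LinearMap.range (A : V →ₗ[ℂ] W)) : W)) :=
      b.linearIndependent.map' (LinearMap.range (A : V →ₗ[ℂ] W)).subtype (Submodule.ker_subtype _)
    have h3 := h2.comp (Fin.castLE h) (Fin.castLE_injective h)
    have h4 : (fun j : Fin r => A (ξ (Fin.castLE h j))) =
        (fun i => ((b i : LinearMap.range (A : V →ₗ[ℂ] W)) : W)) ∘ Fin.castLE h := by
      funext j
      exact hξ _
    rw [h4]
    exact h3
  obtain ⟨f, hf⟩ := H619.exists_dual h1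
  refine ⟨f, fun j => ξ (Fin.castLE h j), ?_⟩
  have h5 : (Matrix.of fun i j : Fin r => ⟪f i, A (ξ (Fin.castLE h j))⟫_ℂ) = 1 := by
    ext i j
    rw [Matrix.of_apply, hf, Matrix.one_apply]
  rw [h5, Matrix.det_one]
  exact one_ne_zero

end minors

section
variable {n q : ℕ} {X : Type} [TopologicalSpace X] [ChartedSpace (Cm n) X]
  {E : Type} [TopologicalSpace E] {p : E → X}
  {w : Chart n X → Cm n → Matrix (Fin n) (Fin n) ℂ} {B : ℝ} {F : E → Cm q}
  {W : Type} [NormedAddCommGroup W] [InnerProductSpace ℂ W]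
  {Θ : E → Chart n X → (Cm n →L[ℂ] W)}

lemma imV_le [IsManifold 𝓘(ℂ, Cm n) ω X] (hp : IsCoveringMap p) (hF : HolB p w F B)
    (hΘ : RelT p F W Θ) {y : E} (hy : Reg (n := n) p F y) {e e' : Chart n X} (he : At e (p y))
    (he' : At e' (p y)) : imV p F Θ y e ≤ imV p F Θ y e' := by
  rintro _ ⟨ξ, hξ, rfl⟩
  exact ⟨_, vs_change hp hF he he' hξ, (hΘ.change y e e' hy he he' ξ hξ).symm⟩

theorem imV_change [IsManifold 𝓘(ℂ, Cm n) ω X] (hp : IsCoveringMap p) (hF : HolB p w F B)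
    (hΘ : RelT p F W Θ) {y : E} (hy : Reg (n := n) p F y) {e e' : Chart n X} (he : At e (p y))
    (he' : At e' (p y)) : imV p F Θ y e = imV p F Θ y e' :=
  le_antisymm (imV_le hp hF hΘ hy he he') (imV_le hp hF hΘ hy he' he)

/-- a product chart `h` of `E` near the regular point `y₁`, in which `F` is the projection to the
first factor and the image of the vertical vectors under `Θ` is the range of `D` -/
structure Box (p : E → X) (F : E → Cm q) (Θ : E → Chart n X → (Cm n →L[ℂ] W)) (y₁ : E)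
    (N : Submodule ℂ (Cm n)) (h : OpenPartialHomeomorph E (Cm q × N))
    (D : Cm q × N → (Cm n →L[ℂ] W)) (δ : ℝ) : Prop where
  pos : 0 < δ
  mem : y₁ ∈ h.source
  h_eq : h y₁ = (F y₁, 0)
  sub : ball (F y₁, (0 : N)) δ ⊆ h.target
  an : AnalyticOnNhd ℂ D (ball (F y₁, (0 : N)) δ)
  reg : ∀ x ∈ ball (F y₁, (0 : N)) δ, Reg (n := n) p F (h.symm x)
  F_eq : ∀ x ∈ ball (F y₁, (0 : N)) δ, F (h.symm x) = x.1
  im : ∀ x ∈ ball (F y₁, (0 : N)) δ, ∀ e, At e (p (h.symm x)) →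
    imV p F Θ (h.symm x) e = LinearMap.range (D x : Cm n →ₗ[ℂ] W)

theorem exists_box [CompleteSpace W] [IsManifold 𝓘(ℂ, Cm n) ω X] (hp : IsCoveringMap p) (hF : HolB p w F B)
    (hΘ : RelT p F W Θ) {y₁ : E} (hy₁ : Reg (n := n) p F y₁) :
    ∃ (N : Submodule ℂ (Cm n)) (h : OpenPartialHomeomorph E (Cm q × N))
      (D : Cm q × N → (Cm n →L[ℂ] W)) (δ : ℝ), Box p F Θ y₁ N h D δ := by
  set e : Chart n X := chartAt (Cm n) (p y₁) with he_def
  have he : At e (p y₁) := ⟨chart_mem_atlas _ _, mem_chart_source _ _⟩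
  obtain ⟨f, hf1, hf2⟩ := H221.holB_an hF y₁ he
  have hs := hy₁ e f he hf2
  obtain ⟨A, hA1, hA2⟩ := hΘ.hol y₁ e hy₁ he
  obtain ⟨P, hP1, hP2⟩ := vert_proj hf1 hs
  obtain ⟨N, G, hG1, hG2, hG3, hG4⟩ := H221.straighten hf1 hs
  obtain ⟨φ, hφ1, hφ2⟩ := hp.isLocalHomeomorph y₁
  have hφp : ∀ y, φ y = p y := fun y => (congrFun hφ2 y).symm
  set h : OpenPartialHomeomorph E (Cm q × N) := (φ.trans e).trans G with hh
  have hhy : ∀ y, h y = G (e (p y)) := by
    intro y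
    rw [← hφp y]
    rfl
  have hmem : y₁ ∈ h.source := by
    rw [hh, OpenPartialHomeomorph.trans_source, OpenPartialHomeomorph.trans_source]
    refine ⟨⟨hφ1, ?_⟩, ?_⟩
    · show φ y₁ ∈ e.source
      rw [hφp]
      exact he.2
    · show e (φ y₁) ∈ G.source
      rw [hφp]
      exact hG1
  have hf0 : F y₁ = f (e (p y₁)) := hf2.self_of_nhds
  have hh0 : h y₁ = (F y₁, (0 : N)) := by rw [hhy, hG2, hf0]
  -- all the conditions, near `y₁`
  have hAt : ∀ᶠ y in 𝓝 y₁, At e (p y) := by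
    filter_upwards [(hp.continuous.continuousAt).eventually (e.open_source.mem_nhds he.2)]
      with y hy
    exact ⟨he.1, hy⟩
  have hP3 : ∀ᶠ y in 𝓝 y₁, (∀ ξ, fderiv ℂ f (e (p y)) (P (e (p y)) ξ) = 0) ∧
      ∀ ξ, fderiv ℂ f (e (p y)) ξ = 0 → P (e (p y)) ξ = ξ :=
    (H221.ev_iff' hp he (Q := fun z => (∀ ξ, fderiv ℂ f z (P z ξ) = 0) ∧
      ∀ ξ, fderiv ℂ f z ξ = 0 → P z ξ = ξ)).2 hP2
  have hreg := (H10.reg_open (n := n) hp hF).mem_nhds hy₁
  have hsrc := h.open_source.mem_nhds hmem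
  set D : Cm q × N → (Cm n →L[ℂ] W) := fun x => (A (G.symm x)).comp (P (G.symm x)) with hD
  have hall : ∀ᶠ y in 𝓝 y₁, Reg (n := n) p F y ∧ F y = (h y).1 ∧ ∀ e', At e' (p y) →
      imV p F Θ y e' = LinearMap.range (D (h y) : Cm n →ₗ[ℂ] W) := by
    filter_upwards [hAt, hP3, hreg, hf2.eventually_nhds, hA2, hsrc] with y a1 a2 a3 a4 a5 a6
    have b1 : G.symm (h y) = e (p y) := by
      rw [hhy]
      refine G.left_inv ?_
      have b2 : y ∈ ((φ.trans e).trans G).source := a6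
      rw [OpenPartialHomeomorph.trans_source] at b2
      have b3 : e (φ y) ∈ G.source := b2.2
      rwa [hφp] at b3
    refine ⟨a3, ?_, fun e' he' => ?_⟩
    · rw [hhy, hG3, a4.self_of_nhds]
    · rw [imV_change hp hF hΘ a3 he' a1]
      have hVS : ∀ ξ, ξ ∈ VS p F y e ↔ fderiv ℂ f (e (p y)) ξ = 0 := fun ξ => mem_VS hp a1 a4
      apply le_antisymm
      · rintro _ ⟨ξ, hξ, rfl⟩
        refine ⟨ξ, ?_⟩
        show A (G.symm (h y)) (P (G.symm (h y)) ξ) = Θ y e ξ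
        rw [b1, a2.2 ξ ((hVS ξ).1 hξ)]
        exact (a5 ξ hξ).symm
      · rintro _ ⟨ξ, rfl⟩
        have c1 : P (e (p y)) ξ ∈ VS p F y e := (hVS _).2 (a2.1 ξ)
        refine ⟨P (e (p y)) ξ, c1, ?_⟩
        show Θ y e (P (e (p y)) ξ) = A (G.symm (h y)) (P (G.symm (h y)) ξ)
        rw [b1]
        exact a5 _ c1
  -- transport to the target
  have hsymm0 : h.symm (F y₁, (0 : N)) = y₁ := by
    rw [← hh0]
    exact h.left_inv hmem
  have htgt : (F y₁, (0 : N)) ∈ h.target := by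
    rw [← hh0]
    exact h.map_source hmem
  have hcs : Tendsto h.symm (𝓝 (F y₁, (0 : N))) (𝓝 y₁) := by
    have h1 := (h.continuousOn_symm.continuousAt (h.open_target.mem_nhds htgt)).tendsto
    rwa [hsymm0] at h1
  have hDan : AnalyticAt ℂ D (F y₁, (0 : N)) := by
    have h0 : G.symm (F y₁, (0 : N)) = e (p y₁) := by
      rw [hf0, ← hG2]
      exact G.left_inv hG1
    have hG5 : AnalyticAt ℂ G.symm (F y₁, (0 : N)) := by rw [hf0]; exact hG4
    have h1 : AnalyticAt ℂ (fun z => (A z).comp (P z)) (e (p y₁)) := by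
      have h0 : AnalyticAt ℂ (fun x : (Cm n →L[ℂ] W) × (Cm n →L[ℂ] Cm n) => x.1.comp x.2)
          (A (e (p y₁)), P (e (p y₁))) :=
        (ContinuousLinearMap.compL ℂ (Cm n) (Cm n) W).analyticAt_bilinear _
      exact AnalyticAt.comp (f := fun z => (A z, P z)) h0 (hA1.prod hP1)
    exact AnalyticAt.comp (g := fun z => (A z).comp (P z)) (f := G.symm) (by rw [h0]; exact h1) hG5
  obtain ⟨δ, hδ, hb⟩ := Metric.eventually_nhds_iff_ball.1
    (((hcs.eventually hall).and (h.open_target.mem_nhds htgt)).and hDan.eventually_analyticAt)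
  refine ⟨N, h, D, δ, hδ, hmem, hh0, fun x hx => (hb x hx).1.2, fun x hx => (hb x hx).2,
    fun x hx => (hb x hx).1.1.1, fun x hx => ?_, fun x hx e' he' => ?_⟩
  · have h1 := (hb x hx).1.1.2.1
    rw [h.right_inv (hb x hx).1.2] at h1
    exact h1
  · have h1 := (hb x hx).1.1.2.2 e' he'
    rw [h.right_inv (hb x hx).1.2] at h1
    exact h1

namespace Box

variable {y₁ : E} {N : Submodule ℂ (Cm n)} {h : OpenPartialHomeomorph E (Cm q × N)}
  {D : Cm q × N → (Cm n →L[ℂ] W)} {δ : ℝ}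

/-- the neighbourhood of `y₁` -/
def U (_hb : Box p F Θ y₁ N h D δ) : Set E := h.source ∩ h ⁻¹' ball (F y₁, (0 : N)) δ

lemma U_open (hb : Box p F Θ y₁ N h D δ) : IsOpen hb.U := h.isOpen_inter_preimage isOpen_ball

lemma mem_U (hb : Box p F Θ y₁ N h D δ) : y₁ ∈ hb.U :=
  ⟨hb.mem, by rw [mem_preimage, hb.h_eq]; exact mem_ball_self hb.pos⟩

lemma symm_mem (hb : Box p F Θ y₁ N h D δ) {x : Cm q × N} (hx : x ∈ ball (F y₁, (0 : N)) δ) :
    h.symm x ∈ hb.U :=
  ⟨h.map_target (hb.sub hx), by rw [mem_preimage, h.right_inv (hb.sub hx)]; exact hx⟩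

lemma left_inv (hb : Box p F Θ y₁ N h D δ) {y : E} (hy : y ∈ hb.U) : h.symm (h y) = y :=
  h.left_inv hy.1

lemma reg_of (hb : Box p F Θ y₁ N h D δ) {y : E} (hy : y ∈ hb.U) : Reg (n := n) p F y := by
  have h1 := hb.reg (h y) hy.2
  rwa [hb.left_inv hy] at h1

lemma fst_eq (hb : Box p F Θ y₁ N h D δ) {y : E} (hy : y ∈ hb.U) : (h y).1 = F y := by
  have h1 := hb.F_eq (h y) hy.2
  rw [hb.left_inv hy] at h1
  exact h1.symm

lemma im_of (hb : Box p F Θ y₁ N h D δ) {y : E} (hy : y ∈ hb.U) {e : Chart n X}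
    (he : At e (p y)) : imV p F Θ y e = LinearMap.range (D (h y) : Cm n →ₗ[ℂ] W) := by
  have h1 := hb.im (h y) hy.2 e
  rw [hb.left_inv hy] at h1
  exact h1 he

lemma symm_tendsto (hb : Box p F Θ y₁ N h D δ) {x : Cm q × N}
    (hx : x ∈ ball (F y₁, (0 : N)) δ) : Tendsto h.symm (𝓝 x) (𝓝 (h.symm x)) :=
  (h.continuousOn_symm.continuousAt (h.open_target.mem_nhds (hb.sub hx))).tendsto

omit [ChartedSpace (Cm n) X] [TopologicalSpace E] in
lemma prod_mem {y₁ : E} {δ : ℝ} {N : Submodule ℂ (Cm n)} {t : Cm q} (ht : t ∈ ball (F y₁) δ) {x : N}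
    (hx : x ∈ ball (0 : N) δ) : (t, x) ∈ ball (F y₁, (0 : N)) δ := by
  rw [← ball_prod_same]
  exact ⟨ht, hx⟩

/-- the minors are analytic -/
lemma minor_an (hb : Box p F Θ y₁ N h D δ) {r : ℕ} (η : Fin r → W) (ξ : Fin r → Cm n) :
    AnalyticOnNhd ℂ (fun x => (Matrix.of fun i j => ⟪η i, D x (ξ j)⟫_ℂ).det)
      (ball (F y₁, (0 : N)) δ) := by
  refine an_det (M := fun x => Matrix.of fun i j => ⟪η i, D x (ξ j)⟫_ℂ) fun i j x hx => ?_
  have h1 : AnalyticAt ℂ (fun x => D x (ξ j)) x := an_apply (hb.an x hx) analyticAt_const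
  exact ((innerSL ℂ (η i)).analyticAt _).comp h1

end Box

/-- **Rank identity.** -/
theorem rank_ident [CompleteSpace W] [IsManifold 𝓘(ℂ, Cm n) ω X] (hp : IsCoveringMap p) (hF : HolB p w F B)
    (hΘ : RelT p F W Θ) (hconn : IsPreconnected {y : E | Reg (n := n) p F y}) {r : ℕ}
    {y₀ : E} {e₀ : Chart n X} (hy₀ : Reg (n := n) p F y₀) (he₀ : At e₀ (p y₀))
    (hr₀ : r ≤ vrk p F Θ y₀ e₀) {y₁ : E} {N : Submodule ℂ (Cm n)}
    {h : OpenPartialHomeomorph E (Cm q × N)} {D : Cm q × N → (Cm n →L[ℂ] W)} {δ : ℝ}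
    (hb : Box p F Θ y₁ N h D δ) : ∃ x ∈ ball (F y₁, (0 : N)) δ,
      r ≤ finrank ℂ (LinearMap.range (D x : Cm n →ₗ[ℂ] W)) := by
  by_contra hcon
  push Not at hcon
  set Z : Set E := {y | Reg (n := n) p F y ∧ ∀ e, At e (p y) → vrk p F Θ y e < r} with hZ
  have h1 : {y : E | Reg (n := n) p F y} ⊆ interior Z := by
    refine hconn.subset_of_closure_inter_subset isOpen_interior ?_ ?_
    · refine ⟨y₁, hb.reg_of hb.mem_U, mem_interior.2 ⟨hb.U, ?_, hb.U_open, hb.mem_U⟩⟩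
      intro y hy
      refine ⟨hb.reg_of hy, fun e he => ?_⟩
      unfold vrk
      rw [hb.im_of hy he]
      exact hcon (h y) hy.2
    · rintro y₂ ⟨hcl, hy₂⟩
      obtain ⟨N', h', D', δ', hb'⟩ := exists_box hp hF hΘ hy₂
      obtain ⟨y₃, hy₃U, hy₃⟩ := mem_closure_iff.1 hcl hb'.U hb'.U_open hb'.mem_U
      have hzero : ∀ (η : Fin r → W) (ξ : Fin r → Cm n), EqOn
          (fun x => (Matrix.of fun i j => ⟪η i, D' x (ξ j)⟫_ℂ).det) 0
          (ball (F y₂, (0 : N')) δ') := by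
        intro η ξ
        refine (hb'.minor_an η ξ).eqOn_zero_of_preconnected_of_eventuallyEq_zero
          (convex_ball _ _).isPreconnected hy₃U.2 ?_
        have h2 : ∀ᶠ x in 𝓝 (h' y₃), h'.symm x ∈ interior Z := by
          have h3 := hb'.symm_tendsto hy₃U.2
          rw [hb'.left_inv hy₃U] at h3
          exact h3.eventually (isOpen_interior.mem_nhds hy₃)
        filter_upwards [h2, isOpen_ball.mem_nhds hy₃U.2] with x h4 h5
        by_contra h6
        have h7 := rank_of_minor (A := D' x) h6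
        have h8 := interior_subset h4
        have he8 : At (chartAt (Cm n) (p (h'.symm x)) : Chart n X) (p (h'.symm x)) :=
          ⟨chart_mem_atlas _ _, mem_chart_source _ _⟩
        have h9 := h8.2 _ he8
        unfold vrk at h9
        rw [hb'.im x h5 _ he8] at h9
        omega
      refine mem_interior.2 ⟨hb'.U, fun y hy => ?_, hb'.U_open, hb'.mem_U⟩
      refine ⟨hb'.reg_of hy, fun e he => ?_⟩
      unfold vrk
      rw [hb'.im_of hy he]
      by_contra h6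
      push Not at h6
      obtain ⟨η, ξ, h7⟩ := minor_of_rank h6
      exact h7 (hzero η ξ hy.2)
  have h2 := (interior_subset (h1 hy₀)).2 e₀ he₀
  omega

end

end Vale.Agent.P284.H15.G
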