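import Vale.Agent.P284.H15.G.Loc

/-!
# P284 (helper15), target G, G1: the space `NN` in a box, constancy of its dimension
-/

open scoped Manifold ContDiff Topology InnerProductSpace ComplexConjugate
open Filter Set Metric Module

noncomputable section

namespace Vale.Agent.P284.H15.G

open Vale.Agent.P272.K Vale.Agent.P284.H894.G Vale.Agent.P284.H894.V Vale.Agent.P284.H894.W
  Vale.Agent.P284.H213.Grp Vale.Agent.P284.H619 Vale.Agent.P284.H885.Ker

section
variable {n q : ℕ} {X : Type} [TopologicalSpace X] [ChartedSpace (Cm n) X]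
  {E : Type} [TopologicalSpace E] {p : E → X}
  {w : Chart n X → Cm n → Matrix (Fin n) (Fin n) ℂ} {B : ℝ} {F : E → Cm q}
  {W : Type} [NormedAddCommGroup W] [InnerProductSpace ℂ W]
  {Θ : E → Chart n X → (Cm n →L[ℂ] W)}

/-- a generic fibre -/
structure Gd (p : E → X) (F : E → Cm q) (Θ : E → Chart n X → (Cm n →L[ℂ] W)) (t : Cm q) :
    Prop where
  conn : IsConnected (F ⁻¹' {t})
  reg : ∀ y, F y = t → Reg (n := n) p F y
  pot : ∃ u : E → W, VPot p F t W Θ u

variable {y₁ : E} {N : Submodule ℂ (Cm n)} {h : OpenPartialHomeomorph E (Cm q × N)}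
  {D : Cm q × N → (Cm n →L[ℂ] W)} {δ : ℝ}

/-- the rank of `J ∘ D` is the rank of `D` -/
lemma mem_range_D {H : Type} [NormedAddCommGroup H] [InnerProductSpace ℂ H] (S : TH H)
    (J : W →ₗᵢ[ℂ] H) {A : Cm n →L[ℂ] W} {r : ℕ}
    (hr : finrank ℂ (LinearMap.range (A : Cm n →ₗ[ℂ] W)) ≤ r) (a : W) :
    (∀ ξ : Fin r → Cm n, S.vw (r + 1) (Fin.cons (J a) (fun i => J (A (ξ i)))) = 0) ↔
      (finrank ℂ (LinearMap.range (A : Cm n →ₗ[ℂ] W)) = r →
        a ∈ LinearMap.range (A : Cm n →ₗ[ℂ] W)) := by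
  set A' : Cm n →ₗ[ℂ] H := J.toLinearMap ∘ₗ (A : Cm n →ₗ[ℂ] W) with hA'
  have hfr : finrank ℂ (LinearMap.range A') = finrank ℂ (LinearMap.range (A : Cm n →ₗ[ℂ] W)) := by
    rw [hA', LinearMap.range_comp]
    exact (LinearEquiv.finrank_eq (Submodule.equivMapOfInjective J.toLinearMap J.injective _)).symm
  have h1 := S.mem_range_iff (R := r) A' (J a) (by rw [hfr]; exact hr)
  rw [hfr] at h1
  constructor
  · intro h2 h3
    obtain ⟨v, hv⟩ := h1.1 h2 h3
    exact ⟨v, J.injective hv⟩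
  · intro h2
    refine h1.2 fun h3 => ?_
    obtain ⟨v, hv⟩ := h2 h3
    exact ⟨v, congrArg J hv⟩

theorem NN_loc [CompleteSpace W] [IsManifold 𝓘(ℂ, Cm n) ω X] (hp : IsCoveringMap p)
    (hF : HolB p w F B) {H : Type} [NormedAddCommGroup H] [InnerProductSpace ℂ H]
    [CompleteSpace H] (S : TH H) (J : W →ₗᵢ[ℂ] H) (hb : Box p F Θ y₁ N h D δ) {r : ℕ}
    (hmax : ∀ y (e : Chart n X), Reg (n := n) p F y → At e (p y) → vrk p F Θ y e ≤ r) {t : Cm q}
    (ht : t ∈ ball (F y₁) δ) (hg : Gd p F Θ t) {a : W} :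
    a ∈ NN p F Θ t r ↔ ∀ x ∈ ball (0 : N) δ, ∀ ξ : Fin r → Cm n,
      S.vw (r + 1) (Fin.cons (J a) (fun i => J (D (t, x) (ξ i)))) = 0 := by
  obtain ⟨u, hu⟩ := hg.pot
  have hat : ∀ y : E, At (chartAt (Cm n) (p y) : Chart n X) (p y) := fun y =>
    ⟨chart_mem_atlas _ _, mem_chart_source _ _⟩
  have hrD : ∀ y ∈ hb.U, finrank ℂ (LinearMap.range (D (h y) : Cm n →ₗ[ℂ] W)) ≤ r := by
    intro y hy
    rw [← hb.im_of hy (hat y)]
    exact hmax y _ (hb.reg_of hy) (hat y)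
  constructor
  · intro ha x hx
    have hx' := Box.prod_mem ht hx
    have hyU := hb.symm_mem hx'
    have hhy : h (h.symm (t, x)) = (t, x) := h.right_inv (hb.sub hx')
    have h1 := hrD _ hyU
    rw [hhy] at h1
    rw [mem_range_D S J h1 a]
    intro h2
    have h3 := hb.im_of hyU (hat _)
    rw [hhy] at h3
    rw [← h3]
    refine mem_NN.1 ha _ _ (hb.F_eq _ hx') (hat _) ?_
    unfold vrk
    rw [h3, h2]
  · intro ha
    have hx0 : (0 : N) ∈ ball (0 : N) δ := mem_ball_self hb.pos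
    have hx' := Box.prod_mem (F := F) ht hx0
    have hyU := hb.symm_mem hx'
    have hyt : F (h.symm (t, (0 : N))) = t := hb.F_eq _ hx'
    have hv0 : ∀ᶠ y in 𝓝 (h.symm (t, (0 : N))), F y = t → VBad S J p F Θ r a y := by
      filter_upwards [hb.U_open.mem_nhds hyU] with y hy hyt'
      refine vbad_of S J hp (holE_of hF) hu hyt' (hat y) ?_
      rw [vbad_iff S J (hmax y _ (hb.reg_of hy) (hat y))]
      intro h2
      rw [hb.im_of hy (hat y)]
      refine (mem_range_D S J (hrD y hy) a).1 ?_ ?_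
      · have h3 : h y = (t, (h y).2) := by
          rw [← hyt', ← hb.fst_eq hy]
        have h4 : (h y).2 ∈ ball (0 : N) δ := by
          have h5 := hy.2
          rw [mem_preimage, ← ball_prod_same] at h5
          exact h5.2
        rw [h3]
        exact ha _ h4
      · have h3 := h2
        unfold vrk at h3
        rwa [hb.im_of hy (hat y)] at h3
    have hall := vbad_all S J hp (holE_of hF) hg.conn.isPreconnected hg.reg hu hyt hv0
    rw [mem_NN]
    intro y e hy he hrk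
    exact (vbad_iff S J (hmax y e (hg.reg y hy) he)).1 (hall y hy e he) hrk

/-- the linear combinations of the vectors `D (t, x) (ξ j)` -/
def LL {r : ℕ} (A : Cm n →L[ℂ] W) (ξ : Fin r → Cm n) : (Fin r → ℂ) →ₗ[ℂ] W :=
  Fintype.linearCombination ℂ (fun j => A (ξ j))

lemma LL_apply {r : ℕ} (A : Cm n →L[ℂ] W) (ξ : Fin r → Cm n) (c : Fin r → ℂ) :
    LL A ξ c = ∑ j, c j • A (ξ j) := Fintype.linearCombination_apply ..

lemma LL_inj {r : ℕ} {A : Cm n →L[ℂ] W} {ξ : Fin r → Cm n}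
    (h : LinearIndependent ℂ (fun j => A (ξ j))) : Function.Injective (LL A ξ) :=
  linearIndependent_iff_injective_fintypeLinearCombination.1 h

lemma LL_range {r : ℕ} {A : Cm n →L[ℂ] W} {ξ : Fin r → Cm n}
    (h : LinearIndependent ℂ (fun j => A (ξ j)))
    (hr : finrank ℂ (LinearMap.range (A : Cm n →ₗ[ℂ] W)) ≤ r) :
    LinearMap.range (LL A ξ) = LinearMap.range (A : Cm n →ₗ[ℂ] W) := by
  have h1 : LinearMap.range (LL A ξ) ≤ LinearMap.range (A : Cm n →ₗ[ℂ] W) := by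
    rintro _ ⟨c, rfl⟩
    rw [LL_apply]
    exact Submodule.sum_mem _ fun j _ => Submodule.smul_mem _ _ ⟨ξ j, rfl⟩
  refine Submodule.eq_of_le_of_finrank_le h1 ?_
  rw [LinearMap.finrank_range_of_inj (LL_inj h), Module.finrank_fin_fun]
  exact hr

/-- **Constancy of `dim (NN ∩ ker Q)` in a box.** -/
theorem box_const [CompleteSpace W] [IsManifold 𝓘(ℂ, Cm n) ω X] (hp : IsCoveringMap p)
    (hF : HolB p w F B) (hΘ : RelT p F W Θ)
    (hconn : IsPreconnected {y : E | Reg (n := n) p F y}) {r : ℕ} {y₀ : E} {e₀ : Chart n X}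
    (hy₀ : Reg (n := n) p F y₀) (he₀ : At e₀ (p y₀)) (hr₀ : r ≤ vrk p F Θ y₀ e₀)
    (hmax : ∀ y (e : Chart n X), Reg (n := n) p F y → At e (p y) → vrk p F Θ y e ≤ r)
    (hb : Box p F Θ y₁ N h D δ) (Q : W →ₗ[ℂ] W) (hQ : Continuous Q) :
    ∃ (d : ℕ) (M : Set (Cm q)), IsMeagre M ∧ ∀ t ∈ ball (F y₁) δ, t ∉ M → Gd p F Θ t →
      (∃ (y : E) (e : Chart n X), F y = t ∧ At e (p y) ∧ vrk p F Θ y e = r) ∧
      finrank ℂ (NN p F Θ t r ⊓ LinearMap.ker Q : Submodule ℂ W) = d := by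
  classical
  obtain ⟨H, iH1, iH2, iH3, S, ⟨J⟩⟩ := exists_TH W
  obtain ⟨⟨t₁, x₁⟩, hx₁, hr₁⟩ := rank_ident hp hF hΘ hconn hy₀ he₀ hr₀ hb
  obtain ⟨η, ξ, hdet⟩ := minor_of_rank hr₁
  have hx₁' : t₁ ∈ ball (F y₁) δ ∧ x₁ ∈ ball (0 : N) δ := by
    rw [← ball_prod_same] at hx₁
    exact hx₁
  have hat : ∀ y : E, At (chartAt (Cm n) (p y) : Chart n X) (p y) := fun y =>
    ⟨chart_mem_atlas _ _, mem_chart_source _ _⟩
  have hDt : ∀ x ∈ ball (0 : N) δ, AnalyticOnNhd ℂ (fun t => D (t, x)) (ball (F y₁) δ) := by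
    intro x hx t ht
    exact AnalyticAt.fun_comp (g := D) (f := fun t => (t, x)) (hb.an _ (Box.prod_mem ht hx))
      (analyticAt_id.prod analyticAt_const)
  -- the first exceptional set
  set g₁ : Cm q → ℂ := fun t => (Matrix.of fun i j => ⟪η i, D (t, x₁) (ξ j)⟫_ℂ).det with hg₁
  have hg₁an : AnalyticOnNhd ℂ g₁ (ball (F y₁) δ) := by
    refine an_det (M := fun t => Matrix.of fun i j => ⟪η i, D (t, x₁) (ξ j)⟫_ℂ)
      fun i j t ht => ?_
    have h1 : AnalyticAt ℂ (fun t => D (t, x₁) (ξ j)) t :=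
      an_apply (hDt x₁ hx₁'.2 t ht) analyticAt_const
    exact ((innerSL ℂ (η i)).analyticAt _).comp h1
  have hM₁ := H221.nowhereDense_zeros hg₁an hx₁'.1 hdet
  -- the covectors
  set β : Cm q → (({x : N // x ∈ ball (0 : N) δ} × (Fin r → Cm n) × H) ⊕ W) →
      ((Fin r → ℂ) →ₗ[ℂ] ℂ) := fun t i => match i with
    | Sum.inl (x, ζ, b) =>
      { toFun := fun c => ⟪b, (S.vw (r + 1)).toMultilinearMap
          (Fin.cons (J (LL (D (t, x₁)) ξ c)) (fun i => J (D (t, x.1) (ζ i))))⟫_ℂ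
        map_add' := fun c c' => by
          rw [map_add, map_add, MultilinearMap.cons_add, inner_add_right]
        map_smul' := fun a c => by
          rw [_root_.map_smul, _root_.map_smul, MultilinearMap.cons_smul, inner_smul_right]
          rfl }
    | Sum.inr b =>
      { toFun := fun c => ⟪b, Q (LL (D (t, x₁)) ξ c)⟫_ℂ
        map_add' := fun c c' => by rw [map_add, map_add, inner_add_right]
        map_smul' := fun a c => by
          rw [_root_.map_smul, _root_.map_smul, inner_smul_right]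
          rfl } with hβ
  have hLan : ∀ c : Fin r → ℂ, AnalyticOnNhd ℂ (fun t => LL (D (t, x₁)) ξ c) (ball (F y₁) δ) := by
    intro c t ht
    simp only [LL_apply]
    refine Finset.analyticAt_fun_sum _ fun j _ => ?_
    exact AnalyticAt.const_smul (an_apply (hDt x₁ hx₁'.2 t ht) analyticAt_const)
  have hβan : ∀ i c, AnalyticOnNhd ℂ (fun t => β t i c) (ball (F y₁) δ) := by
    rintro (⟨x, ζ, b⟩ | b) c t ht
    · have h1 := an_wdg S (V := H) (R := r + 1) (E := Cm q)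
        (fun _ _ => ContinuousLinearMap.id ℂ H)
        (fun t => (Fin.cons (J (LL (D (t, x₁)) ξ c)) (fun i => J (D (t, x.1) (ζ i))) :
          Fin (r + 1) → H)) (x := t) (fun _ => analyticAt_const) (by
          rw [analyticAt_pi_iff]
          intro i
          refine Fin.cases ?_ (fun i => ?_) i
          · exact (J.toContinuousLinearMap.analyticAt _).comp (hLan c t ht)
          · exact (J.toContinuousLinearMap.analyticAt _).comp
              (an_apply (hDt x.1 x.2 t ht) analyticAt_const))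
      exact ((innerSL ℂ b).analyticAt _).comp h1
    · have h1 : AnalyticAt ℂ (fun t => Q (LL (D (t, x₁)) ξ c)) t :=
        ((⟨Q, hQ⟩ : W →L[ℂ] W).analyticAt _).comp (hLan c t ht)
      exact ((innerSL ℂ b).analyticAt _).comp h1
  obtain ⟨d, g₂, hg₂an, ⟨t₂, ht₂, hg₂⟩, hd⟩ := cker_const hb.pos hβan
  have hM₂ := H221.nowhereDense_zeros hg₂an ht₂ hg₂
  refine ⟨d, _, hM₁.isMeagre.union hM₂.isMeagre, fun t ht htM hgd => ?_⟩
  have ht1 : g₁ t ≠ 0 := fun h0 => htM (Or.inl ⟨ht, h0⟩)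
  have ht2 : g₂ t ≠ 0 := fun h0 => htM (Or.inr ⟨ht, h0⟩)
  have hx' := Box.prod_mem (F := F) ht hx₁'.2
  have hyt : F (h.symm (t, x₁)) = t := hb.F_eq _ hx'
  have him := hb.im _ hx' _ (hat _)
  have hrle : finrank ℂ (LinearMap.range (D (t, x₁) : Cm n →ₗ[ℂ] W)) ≤ r := by
    rw [← him]
    exact hmax _ _ (hb.reg _ hx') (hat _)
  have hrk : vrk p F Θ (h.symm (t, x₁)) (chartAt (Cm n) (p (h.symm (t, x₁)))) = r := by
    unfold vrk
    rw [him]
    exact le_antisymm hrle (rank_of_minor (A := D (t, x₁)) ht1)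
  refine ⟨⟨_, _, hyt, hat _, hrk⟩, ?_⟩
  have hind := indep_of_minor (A := D (t, x₁)) ht1
  have hLi := LL_inj hind
  have hLr := LL_range hind hrle
  rw [← hd t ht ht2]
  have hmap : (cker (β t)).map (LL (D (t, x₁)) ξ) = NN p F Θ t r ⊓ LinearMap.ker Q := by
    have key : ∀ c, c ∈ cker (β t) ↔ LL (D (t, x₁)) ξ c ∈ NN p F Θ t r ∧
        Q (LL (D (t, x₁)) ξ c) = 0 := by
      intro c
      rw [mem_cker, NN_loc hp hF S J hb hmax ht hgd]
      constructor
      · intro h1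
        refine ⟨fun x hx ζ => ?_, ?_⟩
        · have h2 := h1 (Sum.inl (⟨x, hx⟩, ζ, S.vw (r + 1)
            (Fin.cons (J (LL (D (t, x₁)) ξ c)) (fun i => J (D (t, x) (ζ i))))))
          exact inner_self_eq_zero.1 h2
        · have h2 := h1 (Sum.inr (Q (LL (D (t, x₁)) ξ c)))
          exact inner_self_eq_zero.1 h2
      · rintro ⟨h1, h2⟩ (⟨x, ζ, b⟩ | b)
        · have h3 := h1 x.1 x.2 ζ
          show ⟪b, S.vw (r + 1) (Fin.cons (J (LL (D (t, x₁)) ξ c))
            (fun i => J (D (t, x.1) (ζ i))))⟫_ℂ = 0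
          rw [h3, inner_zero_right]
        · show ⟪b, Q (LL (D (t, x₁)) ξ c)⟫_ℂ = 0
          rw [h2, inner_zero_right]
    ext a
    rw [Submodule.mem_map, Submodule.mem_inf, LinearMap.mem_ker]
    constructor
    · rintro ⟨c, hc, rfl⟩
      exact (key c).1 hc
    · rintro ⟨h1, h2⟩
      have h3 : a ∈ LinearMap.range (LL (D (t, x₁)) ξ) := by
        rw [hLr, ← him]
        exact mem_NN.1 h1 _ _ hyt (hat _) hrk
      obtain ⟨c, rfl⟩ := h3
      exact ⟨c, (key c).2 ⟨h1, h2⟩, rfl⟩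
  rw [← hmap]
  exact (LinearEquiv.finrank_eq (Submodule.equivMapOfInjective _ hLi _)).symm

end

end Vale.Agent.P284.H15.G
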