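import Vale.Agent.P284.H15.G.Glob
import Vale.Agent.P284.H15.G.Alg
import Mathlib.Topology.Baire.BaireMeasurable

/-!
# P284 (helper15), target G, G1: module NUL for the whole group `Γ`

The multiplicities of the eigenvalues of `π k`, `k ∈ K`, on the space `NN` of the fibre over `t` do not
depend on `t`, off a meagre set; hence the character of `K` on `NN` is invariant under `Γ`, and `FinRepIn`
gives a subgroup of finite index of `K` acting trivially on `NN`.
-/

open scoped Manifold ContDiff Topology InnerProductSpace ComplexConjugate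
open Filter Set Metric Module

noncomputable section

namespace Vale.Agent.P284.H15.G

open Vale.Agent.P272.K Vale.Agent.P284.H894.G Vale.Agent.P284.H894.V Vale.Agent.P284.H894.W
  Vale.Agent.P284.H213.Grp Vale.Agent.P284.H619 Vale.Agent.P284.H885.Ker Vale.Agent.P284.H378
  Vale.Agent.P284.H478.G

section
variable {n q : ℕ} {X : Type} [TopologicalSpace X] [ChartedSpace (Cm n) X]
  {E Γ : Type} [TopologicalSpace E] [Group Γ] [MulAction Γ E] {p : E → X}
  {w : Chart n X → Cm n → Matrix (Fin n) (Fin n) ℂ} {B : ℝ} {F : E → Cm q} {c : Γ → Cm q}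

/-- `K'` acts cocompactly on the fibre -/
theorem compact_fib [CompactSpace X] [T2Space X] (hG : IsGalois Γ p) (hF : HolE n p F)
    (hc : ∀ g y, F (g • y) = F y + c g) {K : Subgroup Γ} (hlat : LatChar Γ q c)
    (hfin0 : ∃ A : Set Γ, A.Finite ∧ ∀ g, c g = 0 → ∃ f ∈ A, f⁻¹ * g ∈ K)
    {K' : Subgroup Γ} (hfi : (K'.subgroupOf K).FiniteIndex) (t : Cm q) :
    ∃ D : Set E, IsCompact D ∧ ∀ y : E, F y = t → ∃ k ∈ K', k • y ∈ D := by
  obtain ⟨D, hD, hcov⟩ := exists_compact n hG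
  obtain ⟨M, hM⟩ := (hD.image (hF.continuous hG.cov)).isBounded.exists_norm_le
  have hcone : c 1 = 0 := by
    have := hlat.add 1 1
    rw [mul_one] at this
    simpa using this
  -- finitely many values
  have hfin := hlat.disc (M + ‖t‖)
  obtain ⟨A, hA, hAcov⟩ := hfin0
  have : Finite (K ⧸ K'.subgroupOf K) := Subgroup.finite_quotient_of_finiteIndex
  set V : Set (Cm q) := {v | (∃ g, c g = v) ∧ ‖v‖ ≤ M + ‖t‖} with hV
  have hch : ∀ v : Cm q, ∃ g : Γ, v ∈ V → c g = v := by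
    intro v
    by_cases h : v ∈ V
    · obtain ⟨g, hg⟩ := h.1
      exact ⟨g, fun _ => hg⟩
    · exact ⟨1, fun h' => absurd h' h⟩
  choose gv hgv using hch
  -- finite set of multipliers
  set R : Set Γ := (fun x : (Cm q × Γ) × (K ⧸ K'.subgroupOf K) =>
    (gv x.1.1 * x.1.2 * (x.2.out : Γ))⁻¹) '' ((V ×ˢ A) ×ˢ univ) with hR
  have hRfin : R.Finite := ((hfin.prod hA).prod finite_univ).image _
  refine ⟨⋃ g ∈ R, (fun y => g • y) '' D, hRfin.isCompact_biUnion fun g _ =>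
    hD.image (hG.cont g), fun y hy => ?_⟩
  obtain ⟨g, hg⟩ := hcov y
  have h1 : c g ∈ V := by
    refine ⟨⟨g, rfl⟩, ?_⟩
    have h2 := hM (F (g • y)) ⟨_, hg, rfl⟩
    have h3 : c g = F (g • y) - t := by rw [hc, hy]; abel
    rw [h3]
    exact (norm_sub_le _ _).trans (by linarith)
  have h2 : c ((gv (c g))⁻¹ * g) = 0 := by
    have h3 := hlat.add (gv (c g)) ((gv (c g))⁻¹ * g)
    rw [mul_inv_cancel_left, hgv _ h1] at h3
    simpa using h3
  obtain ⟨a, ha, hak⟩ := hAcov _ h2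
  set k : K := ⟨a⁻¹ * ((gv (c g))⁻¹ * g), hak⟩ with hk
  set x : K ⧸ K'.subgroupOf K := (k : K ⧸ K'.subgroupOf K) with hx
  have h3 : x.out⁻¹ * k ∈ K'.subgroupOf K := by
    rw [← QuotientGroup.eq, QuotientGroup.out_eq']
  refine ⟨(x.out : Γ)⁻¹ * (k : Γ), h3, ?_⟩
  refine mem_iUnion₂.2 ⟨(gv (c g) * a * (x.out : Γ))⁻¹, ⟨((c g, a), x), ⟨⟨h1, ha⟩, trivial⟩, rfl⟩,
    g • y, hg, ?_⟩
  show (gv (c g) * a * (x.out : Γ))⁻¹ • g • y = ((x.out : Γ)⁻¹ * (k : Γ)) • y
  rw [smul_smul, hk]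
  congr 1
  group

/-- the vertical vectors are invariant under `Γ` -/
theorem VS_trans (hG : IsGalois Γ p) (hF : HolB p w F B) (hc : ∀ g y, F (g • y) = F y + c g)
    (g : Γ) {y : E} {e : Chart n X} (he : At e (p y)) : VS p F (g • y) e = VS p F y e := by
  obtain ⟨f, h1, h2⟩ := H221.holB_an hF y he
  have h3 : ∀ᶠ y' in 𝓝 (g • y), F y' = (fun z => f z + c g) (e (p y')) := by
    have h4 : Tendsto (fun y' => g⁻¹ • y') (𝓝 (g • y)) (𝓝 y) := by
      have := (hG.cont g⁻¹).tendsto (g • y)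
      simpa using this
    filter_upwards [h4.eventually h2] with y' hy'
    have h5 := hc g (g⁻¹ • y')
    rw [smul_inv_smul] at h5
    rw [h5, hy', H10.p_smul' hG]
  ext ξ
  rw [mem_VS hG.cov (by rw [H10.p_smul' hG]; exact he) (f := fun z => f z + c g) h3,
    H10.p_smul' hG, fderiv_add_const]
  exact (mem_VS hG.cov he h2).symm

variable {W : Type} [NormedAddCommGroup W] [InnerProductSpace ℂ W]
  {Θ : E → Chart n X → (Cm n →L[ℂ] W)} {π : Γ →* (W ≃ₗᵢ[ℂ] W)}

theorem imV_trans (hG : IsGalois Γ p) (hF : HolB p w F B) (hc : ∀ g y, F (g • y) = F y + c g)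
    (heq : ∀ (g : Γ) y e, Reg (n := n) p F y → At e (p y) → ∀ ξ ∈ VS p F y e,
      Θ (g • y) e ξ = π g (Θ y e ξ)) (g : Γ) {y : E} (hy : Reg (n := n) p F y)
    {e : Chart n X} (he : At e (p y)) :
    imV p F Θ (g • y) e = (imV p F Θ y e).map ((π g).toLinearEquiv : W →ₗ[ℂ] W) := by
  ext a
  simp only [imV, Submodule.mem_map, VS_trans hG hF hc g he]
  constructor
  · rintro ⟨ξ, hξ, rfl⟩
    exact ⟨_, ⟨ξ, hξ, rfl⟩, (heq g y e hy he ξ hξ).symm⟩
  · rintro ⟨_, ⟨ξ, hξ, rfl⟩, rfl⟩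
    exact ⟨ξ, hξ, heq g y e hy he ξ hξ⟩

theorem NN_trans_mem (hG : IsGalois Γ p) (hF : HolB p w F B)
    (hc : ∀ g y, F (g • y) = F y + c g)
    (heq : ∀ (g : Γ) y e, Reg (n := n) p F y → At e (p y) → ∀ ξ ∈ VS p F y e,
      Θ (g • y) e ξ = π g (Θ y e ξ)) (g : Γ) {t : Cm q}
    (hreg : ∀ y, F y = t → Reg (n := n) p F y) {r : ℕ} {a : W} (ha : a ∈ NN p F Θ t r) :
    π g a ∈ NN p F Θ (t + c g) r := by
  rw [mem_NN] at ha ⊢
  intro y' e hy' he hrk
  set y := g⁻¹ • y' with hy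
  have hgy : g • y = y' := smul_inv_smul _ _
  have hyt : F y = t := by
    have h1 := hc g y
    rw [hgy, hy'] at h1
    exact (add_right_cancel h1).symm
  have he' : At e (p y) := by rw [hy, H10.p_smul' hG]; exact he
  have h1 := imV_trans hG hF hc heq g (hreg y hyt) he'
  rw [hgy] at h1
  have h2 : vrk p F Θ y e = r := by
    rw [← hrk]
    unfold vrk
    rw [h1]
    exact (LinearEquiv.finrank_map_eq (π g).toLinearEquiv _).symm
  rw [h1]
  exact ⟨a, ha y e hyt he' h2, rfl⟩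

/-- the operator `π g - lam` -/
def Qop (π : Γ →* (W ≃ₗᵢ[ℂ] W)) (g : Γ) (lam : ℂ) : W →ₗ[ℂ] W :=
  ((π g).toLinearEquiv : W →ₗ[ℂ] W) - lam • LinearMap.id

lemma Qop_apply (g : Γ) (lam : ℂ) (a : W) : Qop π g lam a = π g a - lam • a := rfl

lemma mem_Qop (g : Γ) (lam : ℂ) (a : W) : a ∈ LinearMap.ker (Qop π g lam) ↔ π g a = lam • a := by
  rw [LinearMap.mem_ker, Qop_apply, sub_eq_zero]

lemma Qop_cont (g : Γ) (lam : ℂ) : Continuous (Qop π g lam) :=
  (π g).continuous.sub (continuous_id.const_smul lam)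

end

/-- **G1.** -/
theorem nulG : NulGStmt := by
  intro n q X _ _ _ _ _ _ w _ E Γ _ _ _ _ p hG F c K hFB hc hKP hfr hGC hR W _ _ _ π Θ M₀ hM₀ hT O
    hO hOne hv
  classical
  obtain ⟨B, hF⟩ := hFB
  obtain ⟨T, hTc, hTi, hfib⟩ := hGC
  have hΘ : RelT p F W Θ := ⟨hT.hol, hT.change⟩
  have hF0 : ∀ k ∈ K, ∀ y, F (k • y) = F y := fun k hk y => by
    rw [hc, hKP.sub k hk, add_zero]
  have hcone : c 1 = 0 := by
    have := hKP.lat.add 1 1
    rw [mul_one] at this
    simpa using this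
  have hcinv : ∀ g, c g⁻¹ = - c g := fun g => by
    have h1 := hKP.lat.add g g⁻¹
    rw [mul_inv_cancel, hcone] at h1
    exact eq_neg_of_add_eq_zero_right h1.symm
  have hat : ∀ y : E, At (chartAt (Cm n) (p y) : Chart n X) (p y) := fun y =>
    ⟨chart_mem_atlas _ _, mem_chart_source _ _⟩
  have hM₁ : IsMeagre (T ∪ M₀) := by
    refine IsMeagre.union ?_ hM₀
    refine IsNowhereDense.isMeagre ?_
    rw [IsNowhereDense, hTc.closure_eq, hTi]
  have hgd : ∀ t ∉ T ∪ M₀, Gd p F Θ t := fun t ht => by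
    obtain ⟨h1, h2⟩ := hfib t fun h => ht (Or.inl h)
    obtain ⟨u, hu, -⟩ := hT.pot t fun h => ht (Or.inr h)
    exact ⟨h1, h2, u, hu⟩
  -- the maximal rank
  obtain ⟨r, hmax, y₀, e₀, hy₀, he₀, hr₀⟩ : ∃ r, (∀ y (e : Chart n X), Reg (n := n) p F y →
      At e (p y) → vrk p F Θ y e ≤ r) ∧ ∃ (y₀ : E) (e₀ : Chart n X), Reg (n := n) p F y₀ ∧
      At e₀ (p y₀) ∧ vrk p F Θ y₀ e₀ = r := by
    set S : Set ℕ := {k | ∃ (y : E) (e : Chart n X), Reg (n := n) p F y ∧ At e (p y) ∧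
      vrk p F Θ y e = k} with hS
    obtain ⟨y, hy⟩ := hR
    have hne : S.Nonempty := ⟨_, y, chartAt (Cm n) (p y), hy, hat y, rfl⟩
    have hbd : BddAbove S := ⟨n, by
      rintro k ⟨y, e, -, -, rfl⟩
      exact vrk_le y e⟩
    refine ⟨sSup S, fun y e h1 h2 => le_csSup hbd ⟨y, e, h1, h2, rfl⟩, ?_⟩
    obtain ⟨y, e, h1, h2, h3⟩ := Nat.sSup_mem hne hbd
    exact ⟨y, e, h1, h2, h3⟩
  -- the eigenvalues
  have hsep := sep_im hG hF hΘ
  have hKc : Countable K := countable_of_fg hKP.fg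
  set Λ : K → Set ℂ := fun k => {lam : ℂ | ∃ a ∈ {a : W | ∃ (y : E) (e : Chart n X),
    Reg (n := n) p F y ∧ At e (p y) ∧ a ∈ imV p F Θ y e}, a ≠ 0 ∧ π k a = lam • a} with hΛ
  have hΛc : ∀ k, (Λ k).Countable := fun k => countable_eig hsep (π k).toLinearIsometry
  choose d M hM hd using fun (k : K) (lam : ℂ) => dim_const hG hF hΘ hM₁ hgd hy₀ he₀ hr₀.ge hmax
    (Qop π (k : Γ) lam) (Qop_cont (k : Γ) lam)
  have hΛi : ∀ k, Countable (Λ k) := fun k => (hΛc k).to_subtype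
  set M₂ : Set (Cm q) := (T ∪ M₀) ∪ (M 1 0 ∪ ⋃ k : K, ⋃ lam : Λ k, M k lam) with hM₂
  have hM₂m : IsMeagre M₂ := hM₁.union ((hM 1 0).union
    (isMeagre_iUnion fun k => isMeagre_iUnion fun lam => hM k lam))
  have hrk : ∀ t ∉ M₂, ∃ (y : E) (e : Chart n X), F y = t ∧ At e (p y) ∧ vrk p F Θ y e = r :=
    fun t ht => (hd 1 0 t fun h => ht (Or.inr (Or.inl h))).1
  have hgd₂ : ∀ t ∉ M₂, Gd p F Θ t := fun t ht => hgd t fun h => ht (Or.inl h)
  have hdim : ∀ t ∉ M₂, ∀ t' ∉ M₂, ∀ (k : K) (lam : ℂ),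
      finrank ℂ (NN p F Θ t r ⊓ LinearMap.ker (Qop π (k : Γ) lam) : Submodule ℂ W) =
      finrank ℂ (NN p F Θ t' r ⊓ LinearMap.ker (Qop π (k : Γ) lam) : Submodule ℂ W) := by
    intro t ht t' ht' k lam
    by_cases hlam : lam ∈ Λ k
    · have h1 : ∀ t ∉ M₂, t ∉ M k lam := fun t ht h => ht (Or.inr (Or.inr
        (mem_iUnion.2 ⟨k, mem_iUnion.2 ⟨⟨lam, hlam⟩, h⟩⟩)))
      rw [(hd k lam t (h1 t ht)).2, (hd k lam t' (h1 t' ht')).2]
    · have h1 : ∀ t ∉ M₂, (NN p F Θ t r ⊓ LinearMap.ker (Qop π (k : Γ) lam) : Submodule ℂ W) =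
          ⊥ := by
        intro t ht
        rw [eq_bot_iff]
        rintro a ⟨ha1, ha2⟩
        rw [Submodule.mem_bot]
        by_contra ha0
        obtain ⟨y, e, hyt, he, hyr⟩ := hrk t ht
        exact hlam ⟨a, ⟨y, e, (hgd₂ t ht).reg y hyt, he, mem_NN.1 ha1 y e hyt he hyr⟩, ha0,
          (mem_Qop _ _ _).1 ha2⟩
      rw [h1 t ht, h1 t' ht']
  -- a generic point
  have hΓc : Countable Γ := H221.countable_grp n hG
  have hM₃ : IsMeagre (⋃ g : Γ, (fun t : Cm q => t + c g) ⁻¹' M₂) :=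
    isMeagre_iUnion fun g => IsMeagre.preimage_of_isOpenMap
      (Homeomorph.addRight (c g)).continuous (Homeomorph.addRight (c g)).isOpenMap hM₂m
  obtain ⟨y₂, hy₂O, hy₂⟩ : ∃ y ∈ O, Reg (n := n) p F y := by
    have hdr : Dense {y : E | Reg (n := n) p F y} := by
      rcases Nat.eq_zero_or_pos q with hq | hq
      · subst hq
        have : {y : E | Reg (n := n) p F y} = univ := by
          refine eq_univ_of_forall fun y e f _ _ x => ⟨0, Subsingleton.elim _ _⟩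
        rw [this]
        exact dense_univ
      · exact H10.reg_dense hq hG.cov hF hR
    obtain ⟨y, h1, h2⟩ := hdr.inter_open_nonempty O hO hOne
    exact ⟨y, h1, h2⟩
  have hFO : F '' O ∈ 𝓝 (F y₂) := by
    rw [← reg_map hG.cov hF hy₂]
    exact image_mem_map (hO.mem_nhds hy₂O)
  obtain ⟨t, ht1, ht2⟩ := (dense_of_mem_residual hM₃).inter_nhds_nonempty hFO
  obtain ⟨y₃, hy₃O, hy₃t⟩ := ht2
  have htg : ∀ g : Γ, t + c g ∉ M₂ := fun g h => ht1 (mem_iUnion.2 ⟨g, h⟩)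
  have ht : t ∉ M₂ := by
    have h1 := htg 1
    rwa [hcone, add_zero] at h1
  have hgt := hgd₂ t ht
  obtain ⟨y₁, e₁, hy₁, he₁, hrk₁⟩ := hrk t ht
  have hNle : NN p F Θ t r ≤ imV p F Θ y₁ e₁ := fun a ha => mem_NN.1 ha y₁ e₁ hy₁ he₁ hrk₁
  have hfd : FiniteDimensional ℂ (NN p F Θ t r) := Submodule.finiteDimensional_of_le hNle
  -- the multiplicities are invariant
  have hnorm := hKP.normal
  have hmult : ∀ (g : Γ) (k : K) (lam : ℂ),
      finrank ℂ (NN p F Θ t r ⊓ LinearMap.ker (Qop π ((MulAut.conjNormal g k : K) : Γ) lam) :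
        Submodule ℂ W) =
      finrank ℂ (NN p F Θ t r ⊓ LinearMap.ker (Qop π (k : Γ) lam) : Submodule ℂ W) := by
    intro g k lam
    rw [hdim t ht (t + c g) (htg g) (MulAut.conjNormal g k) lam]
    have h1 : (NN p F Θ t r ⊓ LinearMap.ker (Qop π (k : Γ) lam) : Submodule ℂ W).map
        ((π g).toLinearEquiv : W →ₗ[ℂ] W) = (NN p F Θ (t + c g) r ⊓
        LinearMap.ker (Qop π ((MulAut.conjNormal g k : K) : Γ) lam) : Submodule ℂ W) := by
      have hconj : ∀ a, π ((MulAut.conjNormal g k : K) : Γ) (π g a) = π g (π k a) := by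
        intro a
        have h2 : (π ((MulAut.conjNormal g k : K) : Γ) * π g) a = (π g * π (k : Γ)) a := by
          rw [← map_mul, ← map_mul, MulAut.conjNormal_apply, inv_mul_cancel_right]
        exact h2
      ext b
      rw [Submodule.mem_map, Submodule.mem_inf, mem_Qop]
      constructor
      · rintro ⟨a, ⟨ha1, ha2⟩, rfl⟩
        refine ⟨NN_trans_mem hG hF hc hT.equi g hgt.reg ha1, ?_⟩
        show π ((MulAut.conjNormal g k : K) : Γ) (π g a) = lam • π g a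
        rw [hconj, (mem_Qop _ _ _).1 ha2, _root_.map_smul]
      · rintro ⟨hb1, hb2⟩
        have hb3 : π g (π g⁻¹ b) = b := by
          have h2 : (π g * π g⁻¹) b = b := by
            rw [← map_mul, mul_inv_cancel, map_one]
            rfl
          exact h2
        refine ⟨π g⁻¹ b, ⟨?_, ?_⟩, hb3⟩
        · have h2 := NN_trans_mem hG hF hc hT.equi g⁻¹ (hgd₂ _ (htg g)).reg hb1
          rw [hcinv, add_neg_cancel_right] at h2
          exact h2
        · show π g⁻¹ b ∈ LinearMap.ker (Qop π (k : Γ) lam)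
          rw [mem_Qop]
          apply (π g).injective
          rw [← hconj, hb3, hb2, _root_.map_smul, hb3]
    rw [← h1]
    exact LinearEquiv.finrank_map_eq (π g).toLinearEquiv _
  -- the representation on `NN`
  obtain ⟨u, hu, hE⟩ := hT.pot t fun h => ht (Or.inl (Or.inr h))
  let UU : K → (NN p F Θ t r →ₗᵢ[ℂ] NN p F Θ t r) := fun k =>
    { toLinearMap := LinearMap.restrict ((π (k : Γ)).toLinearEquiv : W →ₗ[ℂ] W)
        (fun v hv => NN_smul hG hF0 hE k.2 hv)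
      norm_map' := fun v => (π (k : Γ)).norm_map v }
  have hUU : ∀ k v, ((UU k v : NN p F Θ t r) : W) = π (k : Γ) v := fun k v => rfl
  let ρ : K →* (NN p F Θ t r →ₗ[ℂ] NN p F Θ t r) :=
    { toFun := fun k => (UU k).toLinearMap
      map_one' := by
        refine LinearMap.ext fun v => Subtype.ext ?_
        show π ((1 : K) : Γ) (v : W) = v
        rw [Subgroup.coe_one, map_one]
        rfl
      map_mul' := fun k k' => by
        refine LinearMap.ext fun v => Subtype.ext ?_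
        show π ((k * k' : K) : Γ) (v : W) = π (k : Γ) (π (k' : Γ) v)
        rw [Subgroup.coe_mul, map_mul]
        rfl }
  have htrace : ∀ k, LinearMap.trace ℂ (NN p F Θ t r) (ρ k) = ∑ᶠ mu : ℂ, mu *
      (finrank ℂ (NN p F Θ t r ⊓ LinearMap.ker (Qop π (k : Γ) mu) : Submodule ℂ W) : ℂ) := by
    intro k
    have h1 := trace_eig (UU k)
    have h2 : ∀ mu, finrank ℂ (Module.End.eigenspace (UU k).toLinearMap mu) =
        finrank ℂ (NN p F Θ t r ⊓ LinearMap.ker (Qop π (k : Γ) mu) : Submodule ℂ W) := by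
      intro mu
      rw [← Submodule.finrank_map_subtype_eq]
      have h3 : (Module.End.eigenspace (UU k).toLinearMap mu).map (NN p F Θ t r).subtype =
          (NN p F Θ t r ⊓ LinearMap.ker (Qop π (k : Γ) mu) : Submodule ℂ W) := by
        ext b
        rw [Submodule.mem_map, Submodule.mem_inf, mem_Qop]
        constructor
        · rintro ⟨a, ha, rfl⟩
          have h4 : (UU k) a = mu • a := Module.End.mem_eigenspace_iff.1 ha
          exact ⟨a.2, congrArg Subtype.val h4⟩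
        · rintro ⟨hb1, hb2⟩
          refine ⟨⟨b, hb1⟩, Module.End.mem_eigenspace_iff.2 (Subtype.ext hb2), rfl⟩
      rw [h3]
    have h3 : LinearMap.trace ℂ (NN p F Θ t r) (ρ k) =
        LinearMap.trace ℂ (NN p F Θ t r) (UU k).toLinearMap := rfl
    rw [h3, h1]
    exact finsum_congr fun mu => by rw [h2 mu]
  have hfi := ker_fi_of_tr hnorm hKP.fg hKP.nvi hfr ρ (fun k v => (UU k).norm_map v)
    (fun g k => by
      rw [htrace, htrace]
      exact finsum_congr fun mu => by rw [hmult g k mu])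
  set K' : Subgroup Γ := ρ.ker.map K.subtype with hK'
  have hK'K : K' ≤ K := by
    rintro _ ⟨k, -, rfl⟩
    exact k.2
  have hsub : K'.subgroupOf K = ρ.ker := by
    rw [hK', Subgroup.subgroupOf, Subgroup.comap_map_eq_self_of_injective K.subtype_injective]
  have hfi' : (K'.subgroupOf K).FiniteIndex := by rw [hsub]; exact hfi
  have htriv : ∀ k ∈ K', ∀ a ∈ NN p F Θ t r, π k a = a := by
    rintro _ ⟨k, hk, rfl⟩ a ha
    have h1 : ρ k = 1 := hk
    have h2 := congrArg (fun L : (NN p F Θ t r →ₗ[ℂ] NN p F Θ t r) =>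
      ((L ⟨a, ha⟩ : NN p F Θ t r) : W)) h1
    exact h2
  -- conclusion
  obtain ⟨a, ha0, ha⟩ := hv y₃ hy₃O
  have haN : a ∈ NN p F Θ t r := by
    refine mem_NN_of hG.cov (holE_of hF) hgt.conn.isPreconnected hgt.reg hu
      (fun y e hy he => hmax y e (hgt.reg y hy) he) hy₃t ?_
    filter_upwards [ha] with y hy hyt
    exact hy (hyt.trans hy₃t.symm)
  exact ha0 (nul_triv hG (holE_of hF) hF0 hKP.fg hKP.nvi hK'K hfi'
    (compact_fib hG (holE_of hF) hc hKP.lat hKP.fi hfi' t) hgt.conn hgt.reg hu hE hy₁ he₁ hrk₁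
    htriv haN)

end Vale.Agent.P284.H15.G
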